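import Mathlib

/-!
# Near-wall elements of `SL₃(ℝ)`: one lemma for counting, volume and geometry

`b ≥ 1`, `a = b ^ 2`; a near-wall element of the shell has `|g| ≤ C b²`, `|g⁻¹| ≤ C b` and a pivot entry `≥ b²/C`.
-/

open Matrix

namespace Vale.Agent.P092.H414

/-- `SL₃(ℝ)`. -/
abbrev SL3 := Matrix.SpecialLinearGroup (Fin 3) ℝ

/-- All entries are bounded by `c`. -/
def Bd (c : ℝ) (A : Matrix (Fin 3) (Fin 3) ℝ) : Prop := ∀ i j, |A i j| ≤ c

/-- `(i, j)` is a pivot: an entry of maximal modulus. -/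
def Piv (g : SL3) (i j : Fin 3) : Prop := ∀ k l, |g.1 k l| ≤ |g.1 i j|

/-- The near-wall shell. -/
structure Sh (C b : ℝ) (g : SL3) : Prop where
  up : Bd (C * b ^ 2) g.1
  inv : Bd (C * b) (g⁻¹).1
  low : ∃ k l, b ^ 2 ≤ C * |g.1 k l|

theorem exists_piv (g : SL3) : ∃ i j, Piv g i j := by
  obtain ⟨p, hp⟩ := Finite.exists_max (fun p : Fin 3 × Fin 3 => |g.1 p.1 p.2|)
  exact ⟨p.1, p.2, fun k l => hp (k, l)⟩

theorem Sh.piv_low {C b : ℝ} {g : SL3} (hC : 0 ≤ C) (h : Sh C b g) {i j : Fin 3} (hp : Piv g i j) :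
    b ^ 2 ≤ C * |g.1 i j| := by
  obtain ⟨k, l, hkl⟩ := h.low
  exact hkl.trans (mul_le_mul_of_nonneg_left (hp k l) hC)

/-- All `2 × 2` minors of `A` are `±` entries of the adjugate (or `0`). -/
theorem minor_le {A : Matrix (Fin 3) (Fin 3) ℝ} {c : ℝ} (h : Bd c A.adjugate) (i j k m : Fin 3) :
    |A k m * A i j - A k j * A i m| ≤ c := by
  have hc : 0 ≤ c := (abs_nonneg _).trans (h 0 0)
  rw [Bd, Matrix.adjugate_fin_three] at h
  have h00 := abs_le.1 (h 0 0)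
  have h01 := abs_le.1 (h 0 1)
  have h02 := abs_le.1 (h 0 2)
  have h10 := abs_le.1 (h 1 0)
  have h11 := abs_le.1 (h 1 1)
  have h12 := abs_le.1 (h 1 2)
  have h20 := abs_le.1 (h 2 0)
  have h21 := abs_le.1 (h 2 1)
  have h22 := abs_le.1 (h 2 2)
  simp only [Matrix.of_apply, Matrix.cons_val', Matrix.cons_val_zero, Matrix.cons_val_one,
    Matrix.cons_val, Matrix.cons_val_fin_one] at h00 h01 h02 h10 h11 h12 h20 h21 h22
  rw [abs_le]
  fin_cases i <;> fin_cases j <;> fin_cases k <;> fin_cases m <;>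
    simp only [Fin.zero_eta, Fin.mk_one, Fin.reduceFinMk, Fin.isValue] <;> constructor <;> linarith

theorem Sh.adj {C b : ℝ} {g : SL3} (h : Sh C b g) : Bd (C * b) g.1.adjugate := by
  have := h.inv
  rwa [Matrix.SpecialLinearGroup.coe_inv] at this

theorem Sh.piv_ne {C b : ℝ} (hC : 0 < C) (hb : 0 < b) {g : SL3} (h : Sh C b g) {i j : Fin 3}
    (hp : Piv g i j) : g.1 i j ≠ 0 := by
  intro h0
  have := h.piv_low hC.le hp
  rw [h0, abs_zero, mul_zero] at this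
  exact absurd this (not_le.2 (by positivity))

/-- `g = u ⊗ y + E`, `y = g i · / g i j`, `u = g · j`, `|E| ≤ C² / b`. -/
theorem Sh.err {C b : ℝ} (hC : 0 < C) (hb : 0 < b) {g : SL3} (h : Sh C b g) {i j : Fin 3}
    (hp : Piv g i j) (k m : Fin 3) :
    |g.1 k m - g.1 k j * (g.1 i m / g.1 i j)| ≤ C ^ 2 / b := by
  have hne := h.piv_ne hC hb hp
  have hpos : 0 < |g.1 i j| := abs_pos.2 hne
  have hlow := h.piv_low hC.le hp
  have hmin := minor_le h.adj i j k m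
  have e : g.1 k m - g.1 k j * (g.1 i m / g.1 i j) =
      (g.1 k m * g.1 i j - g.1 k j * g.1 i m) / g.1 i j := by
    field_simp
  rw [e, abs_div, div_le_div_iff₀ hpos hb]
  calc |g.1 k m * g.1 i j - g.1 k j * g.1 i m| * b ≤ C * b * b :=
        mul_le_mul_of_nonneg_right hmin hb.le
    _ = C * b ^ 2 := by ring
    _ ≤ C * (C * |g.1 i j|) := mul_le_mul_of_nonneg_left hlow hC.le
    _ = C ^ 2 * |g.1 i j| := by ring

/-- LEMMA N: two near-wall elements of the same shell with the same pivot type and `y`-coordinates at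
distance `≤ D b⁻³` differ by left multiplication by a bounded matrix. -/
theorem mul_inv_bd {C b D : ℝ} (hC : 0 < C) (hb : 0 < b) {g g' : SL3}
    (h : Sh C b g) (h' : Sh C b g') {i j : Fin 3} (hp : Piv g i j) (hp' : Piv g' i j)
    (hy : ∀ l, |g'.1 i l / g'.1 i j - g.1 i l / g.1 i j| * b ^ 3 ≤ D) :
    Bd (C ^ 2 + 3 * (C ^ 2 * D) + 3 * C ^ 3) (g' * g⁻¹).1 := by
  intro k l
  have hne := h.piv_ne hC hb hp
  have hpos : 0 < |g.1 i j| := abs_pos.2 hne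
  have hlow := h.piv_low hC.le hp
  set v : Fin 3 → ℝ := fun m => (g⁻¹).1 m l with hv
  have hvb : ∀ m, |v m| ≤ C * b := fun m => h.inv m l
  -- row i of g times g⁻¹
  have hrow : ∑ m, g.1 i m * v m = if i = l then 1 else 0 := by
    have h1 : (g.1 * (g⁻¹).1) i l = (1 : Matrix (Fin 3) (Fin 3) ℝ) i l := by
      rw [← Matrix.SpecialLinearGroup.coe_mul, mul_inv_cancel]; rfl
    rw [Matrix.mul_apply] at h1
    rw [h1, Matrix.one_apply]
  have hsum : (g' * g⁻¹).1 k l = ∑ m, g'.1 k m * v m := by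
    have : (g' * g⁻¹).1 = g'.1 * (g⁻¹).1 := rfl
    rw [this, Matrix.mul_apply]
  have hdec : ∀ m, g'.1 k m * v m = g'.1 k j / g.1 i j * (g.1 i m * v m)
      + g'.1 k j * ((g'.1 i m / g'.1 i j - g.1 i m / g.1 i j) * v m)
      + (g'.1 k m - g'.1 k j * (g'.1 i m / g'.1 i j)) * v m := by
    intro m
    field_simp
    ring
  rw [hsum]
  simp_rw [hdec]
  rw [Finset.sum_add_distrib, Finset.sum_add_distrib, ← Finset.mul_sum, hrow]
  have t1 : |g'.1 k j / g.1 i j * (if i = l then (1 : ℝ) else 0)| ≤ C ^ 2 := by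
    have h2 : |g'.1 k j / g.1 i j| ≤ C ^ 2 := by
      rw [abs_div, div_le_iff₀ hpos]
      calc |g'.1 k j| ≤ C * b ^ 2 := h'.up k j
        _ ≤ C * (C * |g.1 i j|) := mul_le_mul_of_nonneg_left hlow hC.le
        _ = C ^ 2 * |g.1 i j| := by ring
    split_ifs
    · simpa using h2
    · simp; positivity
  have t2 : |∑ m, g'.1 k j * ((g'.1 i m / g'.1 i j - g.1 i m / g.1 i j) * v m)| ≤
      3 * (C ^ 2 * D) := by
    refine (Finset.abs_sum_le_sum_abs _ _).trans ?_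
    have h3 : ∀ m ∈ (Finset.univ : Finset (Fin 3)),
        |g'.1 k j * ((g'.1 i m / g'.1 i j - g.1 i m / g.1 i j) * v m)| ≤ C ^ 2 * D := by
      intro m _
      rw [abs_mul, abs_mul]
      calc |g'.1 k j| * (|g'.1 i m / g'.1 i j - g.1 i m / g.1 i j| * |v m|)
          ≤ (C * b ^ 2) * (|g'.1 i m / g'.1 i j - g.1 i m / g.1 i j| * (C * b)) := by
            gcongr
            · exact h'.up k j
            · exact hvb m
        _ = C ^ 2 * (|g'.1 i m / g'.1 i j - g.1 i m / g.1 i j| * b ^ 3) := by ring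
        _ ≤ C ^ 2 * D := mul_le_mul_of_nonneg_left (hy m) (by positivity)
    calc _ ≤ ∑ _m : Fin 3, C ^ 2 * D := Finset.sum_le_sum h3
      _ = 3 * (C ^ 2 * D) := by simp
  have t3 : |∑ m, (g'.1 k m - g'.1 k j * (g'.1 i m / g'.1 i j)) * v m| ≤ 3 * C ^ 3 := by
    refine (Finset.abs_sum_le_sum_abs _ _).trans ?_
    have h3 : ∀ m ∈ (Finset.univ : Finset (Fin 3)),
        |(g'.1 k m - g'.1 k j * (g'.1 i m / g'.1 i j)) * v m| ≤ C ^ 3 := by
      intro m _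
      rw [abs_mul]
      calc |g'.1 k m - g'.1 k j * (g'.1 i m / g'.1 i j)| * |v m| ≤ (C ^ 2 / b) * (C * b) := by
            gcongr
            · exact h'.err hC hb hp' k m
            · exact hvb m
        _ = C ^ 3 := by field_simp
    calc _ ≤ ∑ _m : Fin 3, C ^ 3 := Finset.sum_le_sum h3
      _ = 3 * C ^ 3 := by simp
  calc _ ≤ |g'.1 k j / g.1 i j * (if i = l then (1 : ℝ) else 0)
        + ∑ m, g'.1 k j * ((g'.1 i m / g'.1 i j - g.1 i m / g.1 i j) * v m)|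
        + |∑ m, (g'.1 k m - g'.1 k j * (g'.1 i m / g'.1 i j)) * v m| := abs_add_le _ _
    _ ≤ |g'.1 k j / g.1 i j * (if i = l then (1 : ℝ) else 0)|
        + |∑ m, g'.1 k j * ((g'.1 i m / g'.1 i j - g.1 i m / g.1 i j) * v m)|
        + |∑ m, (g'.1 k m - g'.1 k j * (g'.1 i m / g'.1 i j)) * v m| := by
          gcongr; exact abs_add_le _ _
    _ ≤ _ := by gcongr

/-! ### Counting -/

/-- The compact set of matrices with entries bounded by `c`. -/
def KK (c : ℝ) : Set SL3 := {h | Bd c h.1}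

theorem isCompact_KK (c : ℝ) : IsCompact (KK c) := by
  have hcl : Topology.IsClosedEmbedding (fun g : SL3 => g.1) := by
    refine ⟨⟨⟨rfl⟩, Subtype.val_injective⟩, ?_⟩
    have : Set.range (fun g : SL3 => g.1) = {A : Matrix (Fin 3) (Fin 3) ℝ | A.det = 1} := by
      ext A
      constructor
      · rintro ⟨g, rfl⟩; exact g.2
      · intro h; exact ⟨⟨A, h⟩, rfl⟩
    rw [this]
    exact isClosed_eq (Continuous.matrix_det continuous_id) continuous_const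
  have hK : KK c = (fun g : SL3 => g.1) ⁻¹' {A | Bd c A} := rfl
  rw [hK]
  apply hcl.isCompact_preimage
  have : {A : Matrix (Fin 3) (Fin 3) ℝ | Bd c A} =
      Set.pi Set.univ (fun _ => Set.pi Set.univ (fun _ => Set.Icc (-c) c)) := by
    ext A
    constructor
    · intro h i _ j _
      exact abs_le.1 (h i j)
    · intro h i j
      exact abs_le.2 (h i trivial j trivial)
  rw [this]
  exact isCompact_univ_pi (fun _ => isCompact_univ_pi (fun _ => isCompact_Icc))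

theorem finite_inter {Γ : Subgroup SL3} [DiscreteTopology Γ] (c : ℝ) :
    ((Γ : Set SL3) ∩ KK c).Finite := by
  have hcl : IsClosed (Γ : Set SL3) := Subgroup.isClosed_of_discrete
  have hc : IsCompact ((Γ : Set SL3) ∩ KK c) := (isCompact_KK c).inter_left hcl
  have hd : DiscreteTopology ((Γ : Set SL3) ∩ KK c : Set SL3) := by
    have h1 : IsDiscrete (Γ : Set SL3) := ⟨by assumption⟩
    exact (h1.mono Set.inter_subset_left).to_subtype
  exact hc.finite ⟨hd⟩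

/-- Elements of one cell inject into `Γ ∩ 𝒦`. -/
theorem card_cell_le {Γ : Subgroup SL3} {C b D : ℝ} (hC : 0 < C) (hb : 0 < b)
    (hfin : ((Γ : Set SL3) ∩ KK (C ^ 2 + 3 * (C ^ 2 * D) + 3 * C ^ 3)).Finite)
    {i j : Fin 3} (T : Finset SL3)
    (hT : ∀ g ∈ T, g ∈ Γ ∧ Sh C b g ∧ Piv g i j)
    (hy : ∀ g ∈ T, ∀ g' ∈ T, ∀ l, |g'.1 i l / g'.1 i j - g.1 i l / g.1 i j| * b ^ 3 ≤ D) :
    T.card ≤ hfin.toFinset.card := by
  classical
  rcases T.eq_empty_or_nonempty with rfl | ⟨g0, hg0⟩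
  · simp
  refine Finset.card_le_card_of_injOn (fun g => g * g0⁻¹) ?_ ?_
  · intro g hg
    have hg' : g ∈ T := hg
    simp only [Set.Finite.coe_toFinset, Set.mem_inter_iff, SetLike.mem_coe]
    refine ⟨Γ.mul_mem (hT g hg').1 (Γ.inv_mem (hT g0 hg0).1), ?_⟩
    exact mul_inv_bd hC hb (hT g0 hg0).2.1 (hT g hg').2.1 (hT g0 hg0).2.2 (hT g hg').2.2
      (hy g0 hg0 g hg')
  · intro g _ g' _ h
    exact mul_right_cancel h

/-- Version with a centre: all `y_g` at distance `≤ D b⁻³` of one point `y₀`. -/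
theorem card_disc_le {Γ : Subgroup SL3} {C b D : ℝ} (hC : 0 < C) (hb : 0 < b)
    (hfin : ((Γ : Set SL3) ∩ KK (C ^ 2 + 3 * (C ^ 2 * (2 * D)) + 3 * C ^ 3)).Finite)
    {i j : Fin 3} (y0 : Fin 3 → ℝ) (T : Finset SL3)
    (hT : ∀ g ∈ T, g ∈ Γ ∧ Sh C b g ∧ Piv g i j)
    (hy : ∀ g ∈ T, ∀ l, |g.1 i l / g.1 i j - y0 l| * b ^ 3 ≤ D) :
    T.card ≤ hfin.toFinset.card := by
  refine card_cell_le hC hb hfin T hT ?_
  intro g hg g' hg' l
  have h1 := hy g hg l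
  have h2 := hy g' hg' l
  have h3 : |g'.1 i l / g'.1 i j - g.1 i l / g.1 i j| ≤
      |g'.1 i l / g'.1 i j - y0 l| + |g.1 i l / g.1 i j - y0 l| := by
    rw [abs_sub_comm (g.1 i l / g.1 i j)]
    exact abs_sub_le _ _ _
  calc _ ≤ (|g'.1 i l / g'.1 i j - y0 l| + |g.1 i l / g.1 i j - y0 l|) * b ^ 3 := by gcongr
    _ ≤ 2 * D := by rw [add_mul]; linarith

/-! ### Covering and volume -/

/-- The cell code of `g`. -/
noncomputable def code (b : ℝ) (g : SL3) (i j : Fin 3) : Fin 3 → ℤ :=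
  fun l => ⌊g.1 i l / g.1 i j * b ^ 3⌋

theorem code_close {b : ℝ} (hb : 0 < b) {g g' : SL3} {i j : Fin 3} {l : Fin 3}
    (h : code b g i j l = code b g' i j l) :
    |g'.1 i l / g'.1 i j - g.1 i l / g.1 i j| * b ^ 3 ≤ 1 := by
  have h' : ⌊g.1 i l / g.1 i j * b ^ 3⌋ = ⌊g'.1 i l / g'.1 i j * b ^ 3⌋ := h
  have := Int.abs_sub_lt_one_of_floor_eq_floor h'
  have hb3 : 0 < b ^ 3 := pow_pos hb 3
  calc |g'.1 i l / g'.1 i j - g.1 i l / g.1 i j| * b ^ 3
      = |g.1 i l / g.1 i j * b ^ 3 - g'.1 i l / g'.1 i j * b ^ 3| := by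
        rw [← sub_mul, abs_mul, abs_of_pos hb3, abs_sub_comm]
    _ ≤ 1 := this.le

theorem code_bd {b : ℝ} (hb : 0 < b) {g : SL3} {i j : Fin 3} (hp : Piv g i j)
    (l : Fin 3) : code b g i j l ∈ Finset.Icc (-⌈b ^ 3⌉) ⌈b ^ 3⌉ := by
  have hb3 : 0 < b ^ 3 := pow_pos hb 3
  have h1 : |g.1 i l / g.1 i j| ≤ 1 := by
    rw [abs_div]
    exact div_le_one_of_le₀ (hp i l) (abs_nonneg _)
  have h2 := abs_le.1 h1
  rw [Finset.mem_Icc]
  constructor
  · rw [code, Int.le_floor]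
    push_cast
    have : (b ^ 3 : ℝ) ≤ ⌈b ^ 3⌉ := Int.le_ceil _
    nlinarith
  · have h3 : g.1 i l / g.1 i j * b ^ 3 ≤ b ^ 3 := by nlinarith
    calc code b g i j l ≤ ⌊b ^ 3⌋ := Int.floor_le_floor h3
      _ ≤ ⌈b ^ 3⌉ := Int.floor_le_ceil _

/-- COVERING: the shell is covered by `≤ 225 b⁶` right translates of one compact set. -/
theorem exists_cover {C b : ℝ} (hC : 0 < C) (hb : 1 ≤ b) :
    ∃ F : Finset SL3, (F.card : ℝ) ≤ 225 * b ^ 6 ∧
      ∀ g, Sh C b g → ∃ g0 ∈ F, g * g0⁻¹ ∈ KK (C ^ 2 + 3 * (C ^ 2 * 1) + 3 * C ^ 3) := by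
  classical
  have hb0 : 0 < b := lt_of_lt_of_le one_pos hb
  set I : Finset (Fin 3 × Fin 3 × ℤ × ℤ) :=
    Finset.univ ×ˢ (Finset.univ ×ˢ (Finset.Icc (-⌈b ^ 3⌉) ⌈b ^ 3⌉ ×ˢ
      Finset.Icc (-⌈b ^ 3⌉) ⌈b ^ 3⌉)) with hI
  let P : SL3 → (Fin 3 × Fin 3 × ℤ × ℤ) → Prop := fun g p =>
    Sh C b g ∧ Piv g p.1 p.2.1 ∧ code b g p.1 p.2.1 (p.2.1 + 1) = p.2.2.1 ∧
      code b g p.1 p.2.1 (p.2.1 + 2) = p.2.2.2
  let s : (Fin 3 × Fin 3 × ℤ × ℤ) → SL3 := fun p => if h : ∃ g, P g p then h.choose else 1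
  refine ⟨I.image s, ?_, ?_⟩
  · have hcard : (I.image s).card ≤ I.card := Finset.card_image_le
    have hn : 0 ≤ ⌈b ^ 3⌉ := Int.ceil_nonneg (by positivity)
    have hI' : (I.card : ℝ) = 9 * (2 * (⌈b ^ 3⌉ : ℝ) + 1) ^ 2 := by
      rw [hI]
      simp only [Finset.card_product, Finset.card_univ, Fintype.card_fin, Int.card_Icc]
      have h1 : ((⌈b ^ 3⌉ + 1 - -⌈b ^ 3⌉).toNat : ℝ) = 2 * (⌈b ^ 3⌉ : ℝ) + 1 := by
        have : (((⌈b ^ 3⌉ + 1 - -⌈b ^ 3⌉).toNat : ℤ) : ℝ) = ((⌈b ^ 3⌉ + 1 - -⌈b ^ 3⌉ : ℤ) : ℝ) := by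
          rw [Int.toNat_of_nonneg (by omega)]
        push_cast at this
        rw [this]; ring
      push_cast
      rw [h1]; ring
    have hceil : (⌈b ^ 3⌉ : ℝ) ≤ b ^ 3 + 1 := (Int.ceil_lt_add_one _).le
    have hb3 : 1 ≤ b ^ 3 := one_le_pow₀ hb
    have hnn : (0 : ℝ) ≤ ⌈b ^ 3⌉ := by exact_mod_cast hn
    calc ((I.image s).card : ℝ) ≤ I.card := by exact_mod_cast hcard
      _ = 9 * (2 * (⌈b ^ 3⌉ : ℝ) + 1) ^ 2 := hI'
      _ ≤ 9 * (5 * b ^ 3) ^ 2 := by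
          have : 2 * (⌈b ^ 3⌉ : ℝ) + 1 ≤ 5 * b ^ 3 := by linarith
          gcongr
      _ = 225 * b ^ 6 := by ring
  · intro g hg
    obtain ⟨i, j, hp⟩ := exists_piv g
    set p : Fin 3 × Fin 3 × ℤ × ℤ := (i, j, code b g i j (j + 1), code b g i j (j + 2)) with hpdef
    have hex : ∃ g, P g p := ⟨g, hg, hp, rfl, rfl⟩
    have hpI : p ∈ I := by
      rw [hI]
      simp only [Finset.mem_product, Finset.mem_univ, true_and, hpdef]
      exact ⟨code_bd hb0 hp _, code_bd hb0 hp _⟩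
    refine ⟨s p, Finset.mem_image_of_mem s hpI, ?_⟩
    have hs : s p = hex.choose := dif_pos hex
    obtain ⟨hs1, hs2, hs3, hs4⟩ := hex.choose_spec
    rw [hs]
    refine mul_inv_bd hC hb0 hs1 hg hs2 hp ?_
    intro l
    have hl : l = j ∨ l = j + 1 ∨ l = j + 2 := by
      fin_cases j <;> fin_cases l <;> simp
    rcases hl with rfl | rfl | rfl
    · rw [div_self (hg.piv_ne hC hb0 hp)]
      have := hs1.piv_ne hC hb0 hs2
      rw [div_self this, sub_self, abs_zero, zero_mul]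
      exact zero_le_one
    · exact code_close hb0 hs3
    · exact code_close hb0 hs4

open MeasureTheory in
/-- VOLUME OF THE SHELL: `μ(S_b) ≤ 225 b⁶ μ(𝒦)` for every right invariant measure. -/
theorem measure_shell_le [MeasurableSpace SL3] [MeasurableMul SL3] (μ : Measure SL3)
    [μ.IsMulRightInvariant] {C b : ℝ} (hC : 0 < C) (hb : 1 ≤ b) :
    μ {g | Sh C b g} ≤ ENNReal.ofReal (225 * b ^ 6) *
      μ (KK (C ^ 2 + 3 * (C ^ 2 * 1) + 3 * C ^ 3)) := by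
  obtain ⟨F, hF, hcov⟩ := exists_cover hC hb
  have hsub : {g | Sh C b g} ⊆ ⋃ g0 ∈ F,
      (fun g : SL3 => g * g0⁻¹) ⁻¹' (KK (C ^ 2 + 3 * (C ^ 2 * 1) + 3 * C ^ 3)) := by
    intro g hg
    obtain ⟨g0, h0, h1⟩ := hcov g hg
    exact Set.mem_biUnion h0 h1
  calc μ {g | Sh C b g} ≤ μ (⋃ g0 ∈ F,
      (fun g : SL3 => g * g0⁻¹) ⁻¹' (KK (C ^ 2 + 3 * (C ^ 2 * 1) + 3 * C ^ 3))) :=
        measure_mono hsub
    _ ≤ ∑ g0 ∈ F, μ ((fun g : SL3 => g * g0⁻¹) ⁻¹'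
        (KK (C ^ 2 + 3 * (C ^ 2 * 1) + 3 * C ^ 3))) := measure_biUnion_finset_le _ _
    _ = ∑ g0 ∈ F, μ (KK (C ^ 2 + 3 * (C ^ 2 * 1) + 3 * C ^ 3)) := by
        refine Finset.sum_congr rfl fun g0 _ => ?_
        exact measure_preimage_mul_right μ _ _
    _ = (F.card : ENNReal) * μ (KK (C ^ 2 + 3 * (C ^ 2 * 1) + 3 * C ^ 3)) := by
        rw [Finset.sum_const, nsmul_eq_mul]
    _ ≤ _ := by
        gcongr
        rw [← ENNReal.ofReal_natCast]
        exact ENNReal.ofReal_le_ofReal hF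

end Vale.Agent.P092.H414
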