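import Mathlib

/-!
P092, Teams D-C and N (helper414): the norm `Adm` on finite families of operators.

`Col S B E` : `∑ ‖E k ζ‖² ≤ B² ‖ζ‖²` for all `ζ`.
`Adm S C T` : right multiplication by `T k` takes families with `Col S B` to families with
`Col S (B * C)`. This is a submultiplicative norm; it replaces all expansions of functions in a
fixed basis with summable coefficients.
-/

namespace Vale.Agent.P092.H414

open Finset

variable {K : Type*} [NormedAddCommGroup K] [InnerProductSpace ℂ K]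
variable {κ : Type*}

/-- column norm of a family -/
def Col (S : Finset κ) (B : ℝ) (E : κ → (K →L[ℂ] K)) : Prop :=
  ∀ ζ : K, ∑ k ∈ S, ‖E k ζ‖ ^ 2 ≤ B ^ 2 * ‖ζ‖ ^ 2

/-- the norm -/
def Adm (S : Finset κ) (C : ℝ) (T : κ → (K →L[ℂ] K)) : Prop :=
  0 ≤ C ∧ ∀ (B : ℝ) (E : κ → (K →L[ℂ] K)), 0 ≤ B → Col S B E → Col S (B * C) (fun k => E k * T k)

omit [InnerProductSpace ℂ K] in
/-- Minkowski for finite families of vectors -/
theorem mink (S : Finset κ) (a b : κ → K) {A B : ℝ} (hA : 0 ≤ A) (hB : 0 ≤ B)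
    (ha : ∑ k ∈ S, ‖a k‖ ^ 2 ≤ A ^ 2) (hb : ∑ k ∈ S, ‖b k‖ ^ 2 ≤ B ^ 2) :
    ∑ k ∈ S, ‖a k + b k‖ ^ 2 ≤ (A + B) ^ 2 := by
  have h1 : ∑ k ∈ S, ‖a k + b k‖ ^ 2
      ≤ ∑ k ∈ S, ‖a k‖ ^ 2 + 2 * ∑ k ∈ S, ‖a k‖ * ‖b k‖ + ∑ k ∈ S, ‖b k‖ ^ 2 := by
    rw [Finset.mul_sum, ← Finset.sum_add_distrib, ← Finset.sum_add_distrib]
    refine Finset.sum_le_sum fun k _ => ?_
    have h := norm_add_le (a k) (b k)
    have h0 := norm_nonneg (a k + b k)
    nlinarith [norm_nonneg (a k), norm_nonneg (b k)]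
  have h2 : ∑ k ∈ S, ‖a k‖ * ‖b k‖ ≤ A * B := by
    have h3 : (∑ k ∈ S, ‖a k‖ * ‖b k‖) ^ 2 ≤ (A * B) ^ 2 := by
      refine (Finset.sum_mul_sq_le_sq_mul_sq S _ _).trans ?_
      rw [mul_pow]
      exact mul_le_mul ha hb (Finset.sum_nonneg fun _ _ => sq_nonneg _) (sq_nonneg _)
    exact le_of_sq_le_sq h3 (mul_nonneg hA hB)
  nlinarith

namespace Col

variable {S : Finset κ} {B B' : ℝ} {E E' : κ → (K →L[ℂ] K)}

theorem mono (h : Col S B E) (hB : 0 ≤ B) (hBB : B ≤ B') : Col S B' E := fun ζ =>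
  (h ζ).trans (mul_le_mul_of_nonneg_right (pow_le_pow_left₀ hB hBB 2) (sq_nonneg _))

theorem add (hB : 0 ≤ B) (hB' : 0 ≤ B') (h : Col S B E) (h' : Col S B' E') :
    Col S (B + B') (fun k => E k + E' k) := by
  intro ζ
  have := mink S (fun k => E k ζ) (fun k => E' k ζ) (A := B * ‖ζ‖) (B := B' * ‖ζ‖)
    (by positivity) (by positivity) (by rw [mul_pow]; exact h ζ) (by rw [mul_pow]; exact h' ζ)
  calc _ = ∑ k ∈ S, ‖E k ζ + E' k ζ‖ ^ 2 := rfl
    _ ≤ _ := this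
    _ = _ := by ring

theorem subset {S' : Finset κ} (h : Col S B E) (hS : S' ⊆ S) : Col S' B E := fun ζ =>
  (Finset.sum_le_sum_of_subset_of_nonneg hS fun _ _ _ => sq_nonneg _).trans (h ζ)

theorem congr (h : Col S B E) (he : ∀ k ∈ S, E k = E' k) : Col S B E' := fun ζ => by
  refine le_trans (le_of_eq (Finset.sum_congr rfl fun k hk => ?_)) (h ζ)
  rw [he k hk]

/-- operators of norm at most one on the left -/
theorem left (h : Col S B E) (V : κ → (K →L[ℂ] K)) (hV : ∀ k ∈ S, ‖V k‖ ≤ 1) :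
    Col S B (fun k => V k * E k) := fun ζ =>
  (Finset.sum_le_sum fun k hk => by
    refine pow_le_pow_left₀ (norm_nonneg _) ?_ 2
    calc ‖(V k * E k) ζ‖ ≤ ‖V k‖ * ‖E k ζ‖ := (V k).le_opNorm _
      _ ≤ 1 * ‖E k ζ‖ := mul_le_mul_of_nonneg_right (hV k hk) (norm_nonneg _)
      _ = ‖E k ζ‖ := one_mul _).trans (h ζ)

theorem opNorm (h : Col S B E) (hB : 0 ≤ B) {k : κ} (hk : k ∈ S) : ‖E k‖ ≤ B := by
  refine ContinuousLinearMap.opNorm_le_bound _ hB fun ζ => ?_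
  have h1 : ‖E k ζ‖ ^ 2 ≤ (B * ‖ζ‖) ^ 2 := by
    rw [mul_pow]
    exact (Finset.single_le_sum (f := fun k => ‖E k ζ‖ ^ 2) (fun _ _ => sq_nonneg _) hk).trans
      (h ζ)
  exact le_of_sq_le_sq h1 (mul_nonneg hB (norm_nonneg _))

end Col

namespace Adm

variable {S : Finset κ} {C C' : ℝ} {T T' : κ → (K →L[ℂ] K)}

theorem nonneg (h : Adm S C T) : 0 ≤ C := h.1

theorem mono (h : Adm S C T) (hC : C ≤ C') : Adm S C' T :=
  ⟨h.1.trans hC, fun B E hB hE => (h.2 B E hB hE).mono (mul_nonneg hB h.1)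
    (mul_le_mul_of_nonneg_left hC hB)⟩

theorem congr (h : Adm S C T) (he : ∀ k ∈ S, T k = T' k) : Adm S C T' :=
  ⟨h.1, fun B E hB hE => (h.2 B E hB hE).congr fun k hk => by rw [he k hk]⟩

theorem mul (h : Adm S C T) (h' : Adm S C' T') : Adm S (C * C') (fun k => T k * T' k) :=
  ⟨mul_nonneg h.1 h'.1, fun B E hB hE => by
    have := h'.2 (B * C) _ (mul_nonneg hB h.1) (h.2 B E hB hE)
    rw [mul_assoc] at this
    exact this.congr fun k _ => mul_assoc _ _ _⟩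

theorem add (h : Adm S C T) (h' : Adm S C' T') : Adm S (C + C') (fun k => T k + T' k) :=
  ⟨add_nonneg h.1 h'.1, fun B E hB hE => by
    rw [mul_add]
    exact (Col.add (mul_nonneg hB h.1) (mul_nonneg hB h'.1) (h.2 B E hB hE)
      (h'.2 B E hB hE)).congr fun k _ => by rw [mul_add]⟩

theorem zero : Adm S 0 (fun _ => (0 : K →L[ℂ] K)) :=
  ⟨le_rfl, fun B E _ _ ζ => by simp⟩

theorem sum {ι : Type*} (s : Finset ι) (C : ι → ℝ) (T : ι → κ → (K →L[ℂ] K))
    (h : ∀ i ∈ s, Adm S (C i) (T i)) : Adm S (∑ i ∈ s, C i) (fun k => ∑ i ∈ s, T i k) := by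
  classical
  induction s using Finset.induction_on with
  | empty => simpa using zero
  | insert a s ha ih =>
    simp only [Finset.sum_insert ha]
    exact (h a (Finset.mem_insert_self _ _)).add
      (ih fun i hi => h i (Finset.mem_insert_of_mem hi))

/-- a fixed operator -/
theorem const (V : K →L[ℂ] K) (hV : ‖V‖ ≤ C) : Adm S C (fun _ => V) :=
  ⟨(norm_nonneg _).trans hV, fun B E hB hE ζ => by
    refine (hE (V ζ)).trans ?_
    rw [mul_pow, mul_assoc]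
    refine mul_le_mul_of_nonneg_left ?_ (sq_nonneg _)
    rw [← mul_pow]
    exact pow_le_pow_left₀ (norm_nonneg _)
      ((V.le_opNorm ζ).trans (mul_le_mul_of_nonneg_right hV (norm_nonneg _))) 2⟩

/-- scalars depending on the index -/
theorem smul (c : κ → ℂ) (hC : 0 ≤ C) (hc : ∀ k ∈ S, ‖c k‖ ≤ C) (h : Adm S C' T) :
    Adm S (C * C') (fun k => c k • T k) :=
  ⟨mul_nonneg hC h.1, fun B E hB hE => by
    have h1 : Col S (B * C) (fun k => c k • E k) := fun ζ => by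
      calc ∑ k ∈ S, ‖(c k • E k) ζ‖ ^ 2 ≤ ∑ k ∈ S, C ^ 2 * ‖E k ζ‖ ^ 2 := by
            refine Finset.sum_le_sum fun k hk => ?_
            rw [smul_apply, norm_smul, mul_pow]
            exact mul_le_mul_of_nonneg_right (pow_le_pow_left₀ (norm_nonneg _) (hc k hk) 2)
              (sq_nonneg _)
        _ = C ^ 2 * ∑ k ∈ S, ‖E k ζ‖ ^ 2 := by rw [Finset.mul_sum]
        _ ≤ C ^ 2 * (B ^ 2 * ‖ζ‖ ^ 2) := mul_le_mul_of_nonneg_left (hE ζ) (sq_nonneg _)
        _ = _ := by ring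
    have h2 := h.2 (B * C) _ (mul_nonneg hB hC) h1
    rw [mul_assoc] at h2
    exact h2.congr fun k _ => by rw [smul_mul_assoc, mul_smul_comm]⟩

theorem smul_const (c : κ → ℂ) (hC : 0 ≤ C) (hc : ∀ k ∈ S, ‖c k‖ ≤ C) (V : K →L[ℂ] K)
    (hV : ‖V‖ ≤ C') : Adm S (C * C') (fun k => c k • V) :=
  (const V hV).smul c hC hc

theorem neg (h : Adm S C T) : Adm S C (fun k => - T k) := by
  have := h.smul (fun _ => -1) (C := 1) zero_le_one (fun _ _ => by simp)
  rw [one_mul] at this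
  exact this.congr fun k _ => by simp

theorem sub (h : Adm S C T) (h' : Adm S C' T') : Adm S (C + C') (fun k => T k - T' k) :=
  (h.add h'.neg).congr fun k _ => by rw [sub_eq_add_neg]

theorem subset {S' : Finset κ} (h : Adm S C T) (hS : S' ⊆ S) : Adm S' C T := by
  classical
  refine ⟨h.1, fun B E hB hE => ?_⟩
  have h1 : Col S B (fun k => if k ∈ S' then E k else 0) := fun ζ => by
    have e : ∑ k ∈ S, ‖(if k ∈ S' then E k else 0) ζ‖ ^ 2 = ∑ k ∈ S', ‖E k ζ‖ ^ 2 := by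
      rw [← Finset.sum_subset hS (fun k _ hk => by rw [if_neg hk]; simp)]
      exact Finset.sum_congr rfl fun k hk => by rw [if_pos hk]
    rw [e]; exact hE ζ
  exact ((h.2 B _ hB h1).subset hS).congr fun k hk => by simp only [if_pos hk]

/-- multiplication by indicator functions of sets of indices -/
theorem ite (h : Adm S C T) (p : κ → Prop) [DecidablePred p] :
    Adm S C (fun k => if p k then T k else 0) := by
  have := h.smul (fun k => if p k then 1 else 0) (C := 1) zero_le_one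
    (fun k _ => by split_ifs <;> simp)
  rw [one_mul] at this
  exact this.congr fun k _ => by split_ifs <;> simp

/-- it is enough to look at the indices with property `p` -/
theorem of_ite {p : κ → Prop} [DecidablePred p] (h : Adm (S.filter p) C T) :
    Adm S C (fun k => if p k then T k else 0) := by
  refine ⟨h.1, fun B E hB hE ζ => ?_⟩
  have h1 := h.2 B E hB (hE.subset (Finset.filter_subset _ _)) ζ
  refine le_trans (le_of_eq ?_) h1
  rw [Finset.sum_filter]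
  refine Finset.sum_congr rfl fun k _ => ?_
  by_cases hp : p k
  · simp only [if_pos hp]
  · simp only [if_neg hp, mul_zero, zero_apply, norm_zero]
    norm_num

/-- every finite family is admissible for some constant -/
theorem triv (T : κ → (K →L[ℂ] K)) : Adm S (∑ k ∈ S, ‖T k‖) T := by
  refine ⟨Finset.sum_nonneg fun _ _ => norm_nonneg _, fun B E hB hE ζ => ?_⟩
  have h1 : ∀ k ∈ S, ‖(E k * T k) ζ‖ ≤ B * ‖T k‖ * ‖ζ‖ := fun k hk => by
    calc ‖(E k * T k) ζ‖ ≤ ‖E k‖ * ‖T k ζ‖ := (E k).le_opNorm _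
      _ ≤ B * (‖T k‖ * ‖ζ‖) :=
        mul_le_mul (hE.opNorm hB hk) ((T k).le_opNorm ζ) (norm_nonneg _) hB
      _ = _ := by ring
  have h2 : ∑ k ∈ S, ‖(E k * T k) ζ‖ ^ 2 ≤ (∑ k ∈ S, ‖(E k * T k) ζ‖) ^ 2 :=
    Finset.sum_sq_le_sq_sum_of_nonneg (fun _ _ => norm_nonneg _)
  refine h2.trans ?_
  rw [← mul_pow]
  refine pow_le_pow_left₀ (Finset.sum_nonneg fun _ _ => norm_nonneg _) ?_ 2
  rw [Finset.mul_sum, Finset.sum_mul]
  exact Finset.sum_le_sum h1

theorem of_forall (hC : 0 ≤ C) (h : ∀ ε > 0, Adm S (C + ε) T) : Adm S C T := by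
  refine ⟨hC, fun B E hB hE ζ => ?_⟩
  have h1 : ∀ ε > 0, ∑ k ∈ S, ‖(E k * T k) ζ‖ ^ 2 ≤ (B * (C + ε)) ^ 2 * ‖ζ‖ ^ 2 :=
    fun ε hε => (h ε hε).2 B E hB hE ζ
  have h2 : Filter.Tendsto (fun ε : ℝ => (B * (C + ε)) ^ 2 * ‖ζ‖ ^ 2) (nhdsWithin 0 (Set.Ioi 0))
      (nhds ((B * (C + 0)) ^ 2 * ‖ζ‖ ^ 2)) := by
    refine Filter.Tendsto.mono_left ?_ nhdsWithin_le_nhds
    exact Continuous.tendsto (by fun_prop) 0
  have h3 := ge_of_tendsto h2 (Filter.eventually_of_mem self_mem_nhdsWithin fun ε hε => h1 ε hε)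
  simpa using h3

/-- **Neumann series.** -/
theorem neumann {θ : ℝ} {Q R : κ → (K →L[ℂ] K)} (hθ : θ < 1) (hQ : Adm S θ Q)
    (hR : Adm S C R) (he : ∀ k ∈ S, T k = R k + Q k * T k) : Adm S (C / (1 - θ)) T := by
  have h0 : 0 ≤ θ := hQ.1
  have h1 : 0 < 1 - θ := by linarith
  set M := ∑ k ∈ S, ‖T k‖ with hM
  have hM0 : 0 ≤ M := Finset.sum_nonneg fun _ _ => norm_nonneg _
  have step : ∀ n : ℕ, Adm S (C / (1 - θ) + θ ^ n * M) T := by
    intro n
    induction n with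
    | zero =>
      refine (triv T).mono ?_
      have : 0 ≤ C / (1 - θ) := div_nonneg hR.1 h1.le
      simp; linarith
    | succ n ih =>
      have h2 : Adm S (C + θ * (C / (1 - θ) + θ ^ n * M)) T :=
        (hR.add (hQ.mul ih)).congr fun k hk => (he k hk).symm
      refine h2.mono (le_of_eq ?_)
      field_simp
      ring
  refine of_forall (div_nonneg hR.1 h1.le) fun ε hε => ?_
  have h3 : Filter.Tendsto (fun n : ℕ => θ ^ n * M) Filter.atTop (nhds (0 * M)) :=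
    (tendsto_pow_atTop_nhds_zero_of_lt_one h0 hθ).mul_const M
  rw [zero_mul] at h3
  obtain ⟨n, hn⟩ := (h3.eventually (gt_mem_nhds hε)).exists
  exact (step n).mono (by linarith)

/-- **Cells.** -/
theorem cells {γ : Type*} [DecidableEq γ] (g : κ → γ) (G : Finset γ) (hg : ∀ k ∈ S, g k ∈ G)
    (N : γ → (K →L[ℂ] K)) {M : ℝ} (hM : 0 ≤ M)
    (hN : ∀ ζ : K, ∑ c ∈ G, ‖N c ζ‖ ^ 2 ≤ M ^ 2 * ‖ζ‖ ^ 2) (hC : 0 ≤ C)
    (h : ∀ c ∈ G, Adm (S.filter (fun k => g k = c)) C T) :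
    Adm S (C * M) (fun k => T k * N (g k)) := by
  refine ⟨mul_nonneg hC hM, fun B E hB hE ζ => ?_⟩
  calc ∑ k ∈ S, ‖(E k * (T k * N (g k))) ζ‖ ^ 2
      = ∑ c ∈ G, ∑ k ∈ S.filter (fun k => g k = c), ‖(E k * (T k * N (g k))) ζ‖ ^ 2 :=
        (Finset.sum_fiberwise_of_maps_to hg _).symm
    _ = ∑ c ∈ G, ∑ k ∈ S.filter (fun k => g k = c), ‖(E k * T k) (N c ζ)‖ ^ 2 := by
        refine Finset.sum_congr rfl fun c _ => Finset.sum_congr rfl fun k hk => ?_
        rw [(Finset.mem_filter.1 hk).2]; rfl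
    _ ≤ ∑ c ∈ G, (B * C) ^ 2 * ‖N c ζ‖ ^ 2 := by
        refine Finset.sum_le_sum fun c hc => ?_
        exact (h c hc).2 B E hB (hE.subset (Finset.filter_subset _ _)) (N c ζ)
    _ = (B * C) ^ 2 * ∑ c ∈ G, ‖N c ζ‖ ^ 2 := by rw [Finset.mul_sum]
    _ ≤ (B * C) ^ 2 * (M ^ 2 * ‖ζ‖ ^ 2) := mul_le_mul_of_nonneg_left (hN ζ) (sq_nonneg _)
    _ = _ := by ring

/-- a general version of `cells`: the operators `T c k` may depend on the cell, an index may
belong to several cells (at most `m`) -/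
theorem cover {γ : Type*} (G : Finset γ) (rel : κ → γ → Prop) [∀ c, DecidablePred (fun k => rel k c)]
    [∀ k, DecidablePred (rel k)] (m : ℕ)
    (hm : ∀ k ∈ S, (G.filter (rel k)).card ≤ m)
    (N : γ → (K →L[ℂ] K)) {M : ℝ} (hM : 0 ≤ M)
    (hN : ∀ ζ : K, ∑ c ∈ G, ‖N c ζ‖ ^ 2 ≤ M ^ 2 * ‖ζ‖ ^ 2) (hC : 0 ≤ C)
    (T : γ → κ → (K →L[ℂ] K))
    (h : ∀ c ∈ G, Adm (S.filter (fun k => rel k c)) C (T c)) :
    Adm S (C * M * Real.sqrt m) (fun k => ∑ c ∈ G.filter (rel k), T c k * N c) := by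
  refine ⟨by positivity, fun B E hB hE ζ => ?_⟩
  calc ∑ k ∈ S, ‖(E k * ∑ c ∈ G.filter (rel k), T c k * N c) ζ‖ ^ 2
      ≤ ∑ k ∈ S, (m : ℝ) * ∑ c ∈ G.filter (rel k), ‖(E k * T c k) (N c ζ)‖ ^ 2 := by
        refine Finset.sum_le_sum fun k hk => ?_
        have e : (E k * ∑ c ∈ G.filter (rel k), T c k * N c) ζ
            = ∑ c ∈ G.filter (rel k), (E k * T c k) (N c ζ) := by
          rw [Finset.mul_sum, _root_.sum_apply]
          rfl
        rw [e]
        have h1 : ‖∑ c ∈ G.filter (rel k), (E k * T c k) (N c ζ)‖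
            ≤ ∑ c ∈ G.filter (rel k), ‖(E k * T c k) (N c ζ)‖ := norm_sum_le _ _
        have h2 : (∑ c ∈ G.filter (rel k), ‖(E k * T c k) (N c ζ)‖) ^ 2
            ≤ ((G.filter (rel k)).card : ℝ)
              * ∑ c ∈ G.filter (rel k), ‖(E k * T c k) (N c ζ)‖ ^ 2 :=
          sq_sum_le_card_mul_sum_sq
        refine (pow_le_pow_left₀ (norm_nonneg _) h1 2).trans (h2.trans ?_)
        refine mul_le_mul_of_nonneg_right ?_ (Finset.sum_nonneg fun _ _ => sq_nonneg _)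
        exact_mod_cast hm k hk
    _ = m * ∑ c ∈ G, ∑ k ∈ S.filter (fun k => rel k c), ‖(E k * T c k) (N c ζ)‖ ^ 2 := by
        rw [← Finset.mul_sum]
        congr 1
        simp_rw [Finset.sum_filter]
        rw [Finset.sum_comm]
    _ ≤ m * ∑ c ∈ G, (B * C) ^ 2 * ‖N c ζ‖ ^ 2 := by
        refine mul_le_mul_of_nonneg_left (Finset.sum_le_sum fun c hc => ?_) (Nat.cast_nonneg _)
        exact (h c hc).2 B E hB (hE.subset (Finset.filter_subset _ _)) (N c ζ)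
    _ = m * ((B * C) ^ 2 * ∑ c ∈ G, ‖N c ζ‖ ^ 2) := by rw [← Finset.mul_sum]
    _ ≤ m * ((B * C) ^ 2 * (M ^ 2 * ‖ζ‖ ^ 2)) :=
        mul_le_mul_of_nonneg_left (mul_le_mul_of_nonneg_left (hN ζ) (sq_nonneg _))
          (Nat.cast_nonneg _)
    _ = _ := by
        have : (Real.sqrt m) ^ 2 = m := Real.sq_sqrt (Nat.cast_nonneg _)
        rw [mul_pow, mul_pow, mul_pow, this]; ring

end Adm

end Vale.Agent.P092.H414
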