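import Vale.Agent.P092.H604.Kp
import Vale.Agent.P092.H414.Adm

/-!
P092, Teams D-C and N (helper414): the functions `f ∘ k`, restricted to a box on which `k` is
given by bounded coordinates, form an admissible family (`Adm`), for all `f` of a dense
subalgebra of `C(ℙ, ℂ)`, over every local field.
-/

namespace Vale.Agent.P092.H414

set_option linter.unusedSectionVars false

open Finset TopologicalSpace Vale.Agent.P092.H466 Vale.Agent.P092.H820
open scoped LinearAlgebra.Projectivization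

section frac

variable {X K κ : Type*} [TopologicalSpace X] [CompactSpace X] [MetrizableSpace X]
  [MeasurableSpace X] [BorelSpace X] [NormedAddCommGroup K] [InnerProductSpace ℂ K]
  [CompleteSpace K]
  (φ : C(X, ℂ) →⋆ₐ[ℂ] (K →L[ℂ] K)) {D : Set X} {S : Finset κ}

theorem norm_phi_pv {f : C(X, ℂ)} {c : ℝ} (hc : 0 ≤ c) (h : ∀ x ∈ D, ‖f x‖ ≤ c) :
    ‖φ f * pv φ D‖ ≤ c :=
  ContinuousLinearMap.opNorm_le_bound _ hc fun ξ =>
    (norm_phi_pv_le φ hc h ξ).trans (mul_le_mul_of_nonneg_left (norm_pv_le φ D ξ) hc)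

theorem phi_mul_pv (f g : C(X, ℂ)) :
    (φ f * pv φ D) * (φ g * pv φ D) = φ (f * g) * pv φ D := by
  rw [mul_assoc, ← mul_assoc (pv φ D), ← phi_pv_comm, mul_assoc, pv_idem, ← mul_assoc, map_mul]

/-- linear combinations of a fixed finite family of functions -/
theorem adm_lin {N : Type*} [Fintype N] (m : N → C(X, ℂ)) {C δ : ℝ} (hC : 0 ≤ C) (hδ : 0 ≤ δ)
    (hm : ∀ i, ∀ x ∈ D, ‖m i x‖ ≤ δ) (a : κ → N → ℂ) (ha : ∀ k ∈ S, ∀ i, ‖a k i‖ ≤ C)
    (F : κ → C(X, ℂ)) (hF : ∀ k ∈ S, ∀ x ∈ D, F k x = ∑ i, a k i * m i x) :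
    Adm S (Fintype.card N * (C * δ)) (fun k => φ (F k) * pv φ D) := by
  have h := Adm.sum (S := S) (Finset.univ : Finset N) (fun _ => C * δ)
    (fun i k => a k i • (φ (m i) * pv φ D)) (fun i _ =>
      Adm.smul_const (fun k => a k i) hC (fun k hk => ha k hk i) _
        (norm_phi_pv φ hδ (hm i)))
  rw [Finset.sum_const, Finset.card_univ, nsmul_eq_mul] at h
  refine h.congr fun k hk => ?_
  have e : ∑ i, a k i • (φ (m i) * pv φ D) = φ (∑ i, a k i • m i) * pv φ D := by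
    rw [map_sum, Finset.sum_mul]
    exact Finset.sum_congr rfl fun i _ => by rw [map_smul, smul_mul_assoc]
  rw [e]
  refine phi_pv_congr φ fun x hx => ?_
  rw [hF k hk x hx, ContinuousMap.sum_apply]
  exact Finset.sum_congr rfl fun i _ => rfl

/-- **quotients** of such linear combinations -/
theorem adm_frac {N : Type*} [Fintype N] (m : N → C(X, ℂ)) {C δ : ℝ} (hC : 0 < C) (hδ : 0 ≤ δ)
    (hm : ∀ i, ∀ x ∈ D, ‖m i x‖ ≤ 1) (ho : ∀ i, ∀ x ∈ D, ∀ y ∈ D, ‖m i x - m i y‖ ≤ δ)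
    (hδ1 : 2 * (Fintype.card N * (C * C * δ)) ≤ 1) (a b : κ → N → ℂ)
    (ha : ∀ k ∈ S, ∀ i, ‖a k i‖ ≤ C) (hb : ∀ k ∈ S, ∀ i, ‖b k i‖ ≤ C) (F : κ → C(X, ℂ))
    (hF : ∀ k ∈ S, ∀ x ∈ D, F k x * ∑ i, b k i * m i x = ∑ i, a k i * m i x)
    (hq : ∀ k ∈ S, ∀ x ∈ D, 1 ≤ C * ‖∑ i, b k i * m i x‖) :
    Adm S (2 * (Fintype.card N * (C * C))) (fun k => φ (F k) * pv φ D) := by
  rcases D.eq_empty_or_nonempty with rfl | ⟨x0, hx0⟩
  · refine (Adm.zero.mono (by positivity)).congr fun k _ => ?_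
    rw [pv_empty, mul_zero]
  set q : κ → ℂ := fun k => ∑ i, b k i * m i x0 with hqdef
  have hq0 : ∀ k ∈ S, q k ≠ 0 := fun k hk h0 => by
    have := hq k hk x0 hx0
    rw [show ∑ i, b k i * m i x0 = q k from rfl, h0, norm_zero, mul_zero] at this
    linarith
  have hqi : ∀ k ∈ S, ‖(q k)⁻¹‖ ≤ C := fun k hk => by
    rw [norm_inv, inv_le_comm₀ (norm_pos_iff.2 (hq0 k hk)) hC, inv_eq_one_div, div_le_iff₀ hC,
      mul_comm]
    exact hq k hk x0 hx0
  have hR := adm_lin (S := S) φ m (C := C * C) (δ := 1) (by positivity) zero_le_one hm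
    (fun k i => a k i * (q k)⁻¹) (fun k hk i => by
      rw [norm_mul]; exact mul_le_mul (ha k hk i) (hqi k hk) (norm_nonneg _) hC.le)
    (fun k => ∑ i, (a k i * (q k)⁻¹) • m i) (fun k _ x _ => by
      rw [ContinuousMap.sum_apply]; rfl)
  have hQ := adm_lin (S := S) φ (fun i => m i - ContinuousMap.const X (m i x0)) (C := C * C)
    (δ := δ) (by positivity) hδ (fun i x hx => ho i x hx x0 hx0)
    (fun k i => -(b k i * (q k)⁻¹)) (fun k hk i => by
      rw [norm_neg, norm_mul]; exact mul_le_mul (hb k hk i) (hqi k hk) (norm_nonneg _) hC.le)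
    (fun k => ∑ i, (-(b k i * (q k)⁻¹)) • (m i - ContinuousMap.const X (m i x0)))
    (fun k _ x _ => by
      rw [ContinuousMap.sum_apply]; rfl)
  have h2 : Fintype.card N * (C * C * δ) ≤ 1 / 2 := by linarith
  have key := Adm.neumann (T := fun k => φ (F k) * pv φ D) (θ := 1 / 2) (by norm_num)
    (hQ.mono h2) hR (fun k hk => by
      rw [phi_mul_pv, ← add_mul, ← map_add]
      refine phi_pv_congr φ fun x hx => ?_
      have e1 := hF k hk x hx
      have e2 : (∑ i, (a k i * (q k)⁻¹) • m i) x = (∑ i, a k i * m i x) * (q k)⁻¹ := by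
        rw [ContinuousMap.sum_apply, Finset.sum_mul]
        refine Finset.sum_congr rfl fun i _ => ?_
        show (a k i * (q k)⁻¹) * m i x = _
        ring
      have e3 : (∑ i, (-(b k i * (q k)⁻¹)) • (m i - ContinuousMap.const X (m i x0))) x
          = (q k - ∑ i, b k i * m i x) * (q k)⁻¹ := by
        rw [ContinuousMap.sum_apply, hqdef]
        simp only
        rw [← Finset.sum_sub_distrib, Finset.sum_mul]
        refine Finset.sum_congr rfl fun i _ => ?_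
        show (-(b k i * (q k)⁻¹)) * (m i x - m i x0) = _
        ring
      show F k x = (∑ i, (a k i * (q k)⁻¹) • m i) x
        + (∑ i, (-(b k i * (q k)⁻¹)) • (m i - ContinuousMap.const X (m i x0))) x * F k x
      rw [e2, e3, ← e1]
      have := hq0 k hk
      field_simp
      ring)
  refine key.mono (le_of_eq ?_)
  ring

end frac


section good

variable {𝕜 : Type} [NontriviallyNormedField 𝕜] {ι : Type} [Fintype ι]

/-- On every closed set `F` where the maps `θ_k(x) = [∑ m_i(x) c_{k,i}]` are given by functions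
`m_i` of absolute value at most one and oscillation at most `δ`, and by vectors `c_{k,i}` of norm at
most `C`, with `‖∑ m_i(x) c_{k,i}‖ ≥ 1/C`, the family `f ∘ θ_k` is admissible. -/
def GoodAt (f : C(ℙ 𝕜 (ι → 𝕜), ℂ)) (C : ℝ) (N : ℕ) (δ C' : ℝ) : Prop :=
  ∀ {X K κ : Type} [TopologicalSpace X] [CompactSpace X] [MetrizableSpace X]
    [MeasurableSpace X] [BorelSpace X] [NormedAddCommGroup K] [InnerProductSpace ℂ K]
    [CompleteSpace K] (φ : C(X, ℂ) →⋆ₐ[ℂ] (K →L[ℂ] K)) (F : Set X), IsClosed F →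
    ∀ (m : Fin N → X → 𝕜), (∀ i, ContinuousOn (m i) F) → (∀ i, ∀ x ∈ F, ‖m i x‖ ≤ 1) →
    (∀ i, ∀ x ∈ F, ∀ y ∈ F, ‖m i x - m i y‖ ≤ δ) →
    ∀ (S : Finset κ) (c : κ → Fin N → ι → 𝕜), (∀ k ∈ S, ∀ i, ‖c k i‖ ≤ C) →
    (∀ k ∈ S, ∀ x ∈ F, 1 ≤ C * ‖∑ i, m i x • c k i‖) →
    ∀ (h : κ → C(X, ℂ)), (∀ k ∈ S, ∀ x ∈ F, ∀ hne : ∑ i, m i x • c k i ≠ 0,
      h k x = f (Projectivization.mk 𝕜 (∑ i, m i x • c k i) hne)) →
    Adm S C' (fun k => φ (h k) * pv φ F)

/-- the class of functions; it is a dense subalgebra of `C(ℙ, ℂ)` if `𝕜` is a local field -/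
def Good (f : C(ℙ 𝕜 (ι → 𝕜), ℂ)) : Prop :=
  ∀ C > 0, ∀ N : ℕ, ∃ δ > 0, ∃ C', GoodAt f C N δ C'

theorem GoodAt.mono {f : C(ℙ 𝕜 (ι → 𝕜), ℂ)} {C δ C' δ' C'' : ℝ} {N : ℕ}
    (h : GoodAt f C N δ C') (hδ : δ' ≤ δ) (hC : C' ≤ C'') : GoodAt f C N δ' C'' := by
  intro X K κ _ _ _ _ _ _ _ _ φ F hF m hm hm1 ho S c hc hl g hg
  exact (h φ F hF m hm hm1 (fun i x hx y hy => (ho i x hx y hy).trans hδ) S c hc hl g hg).mono hC

/-- Tietze: a continuous function of `[L(x)]` -/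
theorem exists_ext {X : Type} [TopologicalSpace X] [CompactSpace X] [MetrizableSpace X]
    (f : C(ℙ 𝕜 (ι → 𝕜), ℂ)) {F : Set X} (hF : IsClosed F) {L : X → ι → 𝕜}
    (hL : ContinuousOn L F) (h0 : ∀ x ∈ F, L x ≠ 0) :
    ∃ g : C(X, ℂ), ∀ x ∈ F, ∀ hne : L x ≠ 0, g x = f (Projectivization.mk 𝕜 (L x) hne) := by
  have hc : Continuous fun x : F => pj 𝕜 ι ⟨L x.1, h0 x.1 x.2⟩ :=
    pj_continuous.comp (Continuous.subtype_mk (continuousOn_iff_continuous_domRestrict.1 hL) _)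
  obtain ⟨g, hg⟩ := ContinuousMap.exists_restrict_eq hF
    (⟨fun x : F => f (pj 𝕜 ι ⟨L x.1, h0 x.1 x.2⟩), f.continuous.comp hc⟩ : C(F, ℂ))
  refine ⟨g, fun x hx hne => ?_⟩
  have := congrArg (fun u : C(F, ℂ) => u ⟨x, hx⟩) hg
  exact this

theorem cont_L {X : Type} [TopologicalSpace X] {F : Set X} {N : ℕ} {m : Fin N → X → 𝕜}
    (hm : ∀ i, ContinuousOn (m i) F) (c : Fin N → ι → 𝕜) :
    ContinuousOn (fun x => ∑ i, m i x • c i) F := by
  refine continuousOn_finsetSum _ fun i _ => ?_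
  exact (hm i).smul continuousOn_const

theorem ne_of_low {C : ℝ} {v : ι → 𝕜} (h : 1 ≤ C * ‖v‖) : v ≠ 0 := by
  rintro rfl
  rw [norm_zero, mul_zero] at h
  linarith

theorem good_mul {f g : C(ℙ 𝕜 (ι → 𝕜), ℂ)} (hf : Good f) (hg : Good g) : Good (f * g) := by
  intro C hC N
  obtain ⟨δ1, h1, C1, k1⟩ := hf C hC N
  obtain ⟨δ2, h2, C2, k2⟩ := hg C hC N
  refine ⟨min δ1 δ2, lt_min h1 h2, C1 * C2, ?_⟩
  intro X K κ _ _ _ _ _ _ _ _ φ F hF m hm hm1 ho S c hc hl h hh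
  have e1 : ∀ k : κ, ∃ u : C(X, ℂ), k ∈ S → ∀ x ∈ F, ∀ hne : ∑ i, m i x • c k i ≠ 0,
      u x = f (Projectivization.mk 𝕜 (∑ i, m i x • c k i) hne) := fun k => by
    by_cases hk : k ∈ S
    · obtain ⟨u, hu⟩ := exists_ext f hF (cont_L hm (c k)) fun x hx => ne_of_low (hl k hk x hx)
      exact ⟨u, fun _ => hu⟩
    · exact ⟨0, fun h => absurd h hk⟩
  have e2 : ∀ k : κ, ∃ u : C(X, ℂ), k ∈ S → ∀ x ∈ F, ∀ hne : ∑ i, m i x • c k i ≠ 0,
      u x = g (Projectivization.mk 𝕜 (∑ i, m i x • c k i) hne) := fun k => by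
    by_cases hk : k ∈ S
    · obtain ⟨u, hu⟩ := exists_ext g hF (cont_L hm (c k)) fun x hx => ne_of_low (hl k hk x hx)
      exact ⟨u, fun _ => hu⟩
    · exact ⟨0, fun h => absurd h hk⟩
  choose u hu using e1
  choose v hv using e2
  have a1 := k1 φ F hF m hm hm1 (fun i x hx y hy => (ho i x hx y hy).trans (min_le_left _ _))
    S c hc hl u hu
  have a2 := k2 φ F hF m hm hm1 (fun i x hx y hy => (ho i x hx y hy).trans (min_le_right _ _))
    S c hc hl v hv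
  refine (a1.mul a2).congr fun k hk => ?_
  rw [phi_mul_pv]
  refine phi_pv_congr φ fun x hx => ?_
  have hne := ne_of_low (hl k hk x hx)
  rw [hh k hk x hx hne, ContinuousMap.mul_apply, hu k hk x hx hne, hv k hk x hx hne]
  rfl

theorem good_add {f g : C(ℙ 𝕜 (ι → 𝕜), ℂ)} (hf : Good f) (hg : Good g) : Good (f + g) := by
  intro C hC N
  obtain ⟨δ1, h1, C1, k1⟩ := hf C hC N
  obtain ⟨δ2, h2, C2, k2⟩ := hg C hC N
  refine ⟨min δ1 δ2, lt_min h1 h2, C1 + C2, ?_⟩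
  intro X K κ _ _ _ _ _ _ _ _ φ F hF m hm hm1 ho S c hc hl h hh
  have e1 : ∀ k : κ, ∃ u : C(X, ℂ), k ∈ S → ∀ x ∈ F, ∀ hne : ∑ i, m i x • c k i ≠ 0,
      u x = f (Projectivization.mk 𝕜 (∑ i, m i x • c k i) hne) := fun k => by
    by_cases hk : k ∈ S
    · obtain ⟨u, hu⟩ := exists_ext f hF (cont_L hm (c k)) fun x hx => ne_of_low (hl k hk x hx)
      exact ⟨u, fun _ => hu⟩
    · exact ⟨0, fun h => absurd h hk⟩
  choose u hu using e1
  have a1 := k1 φ F hF m hm hm1 (fun i x hx y hy => (ho i x hx y hy).trans (min_le_left _ _))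
    S c hc hl u hu
  have a2 := k2 φ F hF m hm hm1 (fun i x hx y hy => (ho i x hx y hy).trans (min_le_right _ _))
    S c hc hl (fun k => h k - u k) (fun k hk x hx hne => by
      rw [ContinuousMap.sub_apply, hh k hk x hx hne, hu k hk x hx hne, ContinuousMap.add_apply]
      ring)
  refine (a1.add a2).congr fun k hk => ?_
  rw [← add_mul, ← map_add]
  congr 2
  abel

theorem good_const (z : ℂ) : Good (ContinuousMap.const (ℙ 𝕜 (ι → 𝕜)) z) := by
  intro C hC N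
  refine ⟨1, one_pos, ‖z‖, ?_⟩
  intro X K κ _ _ _ _ _ _ _ _ φ F hF m hm hm1 ho S c hc hl h hh
  refine (Adm.const (S := S) (φ (ContinuousMap.const X z) * pv φ F)
    (norm_phi_pv φ (norm_nonneg z) fun x _ => le_rfl)).congr fun k hk => ?_
  refine phi_pv_congr φ fun x hx => ?_
  rw [hh k hk x hx (ne_of_low (hl k hk x hx))]
  rfl

/-- the good functions form a subalgebra -/
def goodAlg : Subalgebra ℂ C(ℙ 𝕜 (ι → 𝕜), ℂ) where
  carrier := {f | Good f}
  mul_mem' hf hg := good_mul hf hg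
  add_mem' hf hg := good_add hf hg
  algebraMap_mem' z := good_const z

theorem mem_goodAlg {f : C(ℙ 𝕜 (ι → 𝕜), ℂ)} : f ∈ goodAlg (𝕜 := 𝕜) (ι := ι) ↔ Good f := Iff.rfl

/-- density from a star closed family of good functions which separates the points -/
theorem good_dense_of [ProperSpace 𝕜] (G : Set C(ℙ 𝕜 (ι → 𝕜), ℂ)) (hG : ∀ f ∈ G, Good f)
    (hs : ∀ f ∈ G, star f ∈ G) (hsep : ∀ x y : ℙ 𝕜 (ι → 𝕜), x ≠ y → ∃ f ∈ G, f x ≠ f y) :
    Dense {f : C(ℙ 𝕜 (ι → 𝕜), ℂ) | Good f} := by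
  have hstar : star G = G := by
    apply Set.Subset.antisymm
    · intro f hf
      have := hs _ hf
      rwa [star_star] at this
    · intro f hf
      exact hs f hf
  let A : StarSubalgebra ℂ C(ℙ 𝕜 (ι → 𝕜), ℂ) :=
    { Algebra.adjoin ℂ G with
      star_mem' := by
        intro f hf
        have h1 : star f ∈ star (Algebra.adjoin ℂ G) := by
          rw [Subalgebra.mem_star_iff, star_star]; exact hf
        rw [Subalgebra.star_adjoin_comm, hstar] at h1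
        exact h1 }
  have hA : A.toSubalgebra.SeparatesPoints := by
    intro x y hxy
    obtain ⟨f, hf, hne⟩ := hsep x y hxy
    exact ⟨f, ⟨f, Algebra.subset_adjoin hf, rfl⟩, hne⟩
  have h1 := ContinuousMap.starSubalgebra_topologicalClosure_eq_top_of_separatesPoints A hA
  have h2 : (A : Set C(ℙ 𝕜 (ι → 𝕜), ℂ)) ⊆ {f | Good f} := by
    intro f hf
    have : Algebra.adjoin ℂ G ≤ goodAlg := Algebra.adjoin_le hG
    exact this hf
  have h3 : Dense (A : Set C(ℙ 𝕜 (ι → 𝕜), ℂ)) := by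
    rw [dense_iff_closure_eq, ← StarSubalgebra.topologicalClosure_coe, h1]
    rfl
  exact h3.mono h2

end good

end Vale.Agent.P092.H414
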