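import Vale.Agent.P092.H414.AdmF

/-!
P092, Teams D-C and N (helper414): the good functions (`AdmF`) are dense over every local field.
-/

namespace Vale.Agent.P092.H414

set_option linter.unusedSectionVars false

open Finset TopologicalSpace Vale.Agent.P092.H466 Vale.Agent.P092.H820
open scoped LinearAlgebra.Projectivization ComplexConjugate

section gen

variable {𝕜 : Type} [NontriviallyNormedField 𝕜] {ι : Type} [Fintype ι]
  (j : 𝕜 →+* ℂ) (hj : ∀ x, ‖j x‖ = ‖x‖)

/-- `∑ |v_c|²` -/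
noncomputable def qq (v : ι → 𝕜) : ℝ := ∑ c, ‖v c‖ ^ 2

theorem norm_sq_le_qq (v : ι → 𝕜) : ‖v‖ ^ 2 ≤ qq v := by
  rcases isEmpty_or_nonempty ι with h | h
  · have : v = 0 := Subsingleton.elim _ _
    rw [this, norm_zero]
    simp [qq]
  · obtain ⟨i, hi⟩ := Finite.exists_max fun i => ‖v i‖
    have h1 : ‖v‖ ≤ ‖v i‖ := (pi_norm_le_iff_of_nonneg (norm_nonneg _)).2 hi
    refine (pow_le_pow_left₀ (norm_nonneg _) h1 2).trans ?_
    exact Finset.single_le_sum (f := fun c => ‖v c‖ ^ 2) (fun _ _ => sq_nonneg _)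
      (Finset.mem_univ i)

theorem qq_pos {v : ι → 𝕜} (hv : v ≠ 0) : 0 < qq v :=
  lt_of_lt_of_le (pow_pos (norm_pos_iff.2 hv) 2) (norm_sq_le_qq v)

theorem qq_smul (t : 𝕜) (v : ι → 𝕜) : qq (t • v) = ‖t‖ ^ 2 * qq v := by
  unfold qq
  rw [Finset.mul_sum]
  exact Finset.sum_congr rfl fun c _ => by
    rw [Pi.smul_apply, smul_eq_mul, norm_mul, mul_pow]

theorem qq_continuous : Continuous (qq : (ι → 𝕜) → ℝ) := by
  unfold qq
  exact continuous_finsetSum _ fun c _ => ((continuous_apply c).norm).pow 2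

include hj in
theorem j_conj (t : 𝕜) : j t * conj (j t) = ((‖t‖ ^ 2 : ℝ) : ℂ) := by
  rw [Complex.mul_conj, Complex.normSq_eq_norm_sq, hj]

include hj in
theorem j_continuous : Continuous j := by
  refine continuous_iff_continuousAt.2 fun x => ?_
  rw [Metric.continuousAt_iff]
  intro ε hε
  refine ⟨ε, hε, fun y hy => ?_⟩
  rw [dist_eq_norm] at hy ⊢
  rw [← map_sub, hj]; exact hy

/-- the value of the generator on vectors -/
noncomputable def gv (a b : ι) (v : ι → 𝕜) : ℂ := j (v a) * conj (j (v b)) / (qq v : ℂ)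

include hj in
theorem gv_smul (a b : ι) (t : 𝕜) (ht : t ≠ 0) (v : ι → 𝕜) : gv j a b (t • v) = gv j a b v := by
  unfold gv
  rw [qq_smul, Pi.smul_apply, Pi.smul_apply, smul_eq_mul, smul_eq_mul, map_mul, map_mul,
    map_mul]
  have h1 : (‖t‖ : ℂ) ≠ 0 := by
    rw [Ne, Complex.ofReal_eq_zero, norm_eq_zero]; exact ht
  have h2 := j_conj j hj t
  push_cast at h2 ⊢
  calc _ = ((‖t‖ : ℂ) ^ 2 * (j (v a) * conj (j (v b)))) / ((‖t‖ : ℂ) ^ 2 * qq v) := by
        rw [← h2]; ring
    _ = _ := mul_div_mul_left _ _ (pow_ne_zero 2 h1)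

/-- the generators `x_a x̄_b / |x|²` -/
noncomputable def genF (a b : ι) : C(ℙ 𝕜 (ι → 𝕜), ℂ) where
  toFun := Quotient.lift (fun v : {v : ι → 𝕜 // v ≠ 0} => gv j a b v.1) (by
    rintro v w ⟨c, hc⟩
    have e : v.1 = (c : 𝕜) • w.1 := hc.symm
    show gv j a b v.1 = gv j a b w.1
    rw [e, gv_smul j hj a b _ c.ne_zero])
  continuous_toFun := by
    refine (pj_oq (k := 𝕜) (ι := ι)).isQuotientMap.continuous_iff.2 ?_
    have hc : Continuous fun v : {v : ι → 𝕜 // v ≠ 0} => v.1 := continuous_subtype_val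
    have h1 : ∀ a : ι, Continuous fun v : {v : ι → 𝕜 // v ≠ 0} => j (v.1 a) := fun a =>
      (j_continuous j hj).comp ((continuous_apply a).comp hc)
    refine Continuous.div ((h1 a).mul (Complex.continuous_conj.comp (h1 b)))
      (Complex.continuous_ofReal.comp (qq_continuous.comp hc)) fun v => ?_
    rw [Ne, Complex.ofReal_eq_zero]
    exact (qq_pos v.2).ne'

theorem genF_mk (a b : ι) (v : ι → 𝕜) (hv : v ≠ 0) :
    genF j hj a b (Projectivization.mk 𝕜 v hv) = gv j a b v := rfl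

theorem genF_star (a b : ι) : star (genF j hj a b) = genF j hj b a := by
  ext x
  obtain ⟨v, rfl⟩ := pj_surj x
  show conj (gv j a b v.1) = gv j b a v.1
  unfold gv
  rw [map_div₀, map_mul, Complex.conj_conj, Complex.conj_ofReal, mul_comm]

theorem genF_sep (x y : ℙ 𝕜 (ι → 𝕜)) (hxy : x ≠ y) :
    ∃ a b, genF j hj a b x ≠ genF j hj a b y := by
  by_contra hcon
  push Not at hcon
  apply hxy
  obtain ⟨v, rfl⟩ := pj_surj x
  obtain ⟨w, rfl⟩ := pj_surj y
  have h : ∀ a b, gv j a b v.1 = gv j a b w.1 := hcon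
  have hinj : Function.Injective j := j.injective
  have qv : (qq v.1 : ℂ) ≠ 0 := by rw [Ne, Complex.ofReal_eq_zero]; exact (qq_pos v.2).ne'
  have qw : (qq w.1 : ℂ) ≠ 0 := by rw [Ne, Complex.ofReal_eq_zero]; exact (qq_pos w.2).ne'
  obtain ⟨b, hb⟩ := Function.ne_iff.1 w.2
  have hb' : w.1 b ≠ 0 := hb
  have hjb : j (w.1 b) ≠ 0 := fun h0 => hb' (hinj (by rw [h0, map_zero]))
  have hvb : v.1 b ≠ 0 := by
    intro h0
    have h1 := h b b
    unfold gv at h1
    rw [h0, map_zero, zero_mul, zero_div] at h1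
    have h2 : j (w.1 b) * conj (j (w.1 b)) = 0 := by
      rcases div_eq_zero_iff.1 h1.symm with h | h
      · exact h
      · exact absurd h qw
    rcases mul_eq_zero.1 h2 with h | h
    · exact hjb h
    · exact hjb ((map_eq_zero _).1 h)
  have hjvb : j (v.1 b) ≠ 0 := fun h0 => hvb (hinj (by rw [h0, map_zero]))
  have hcv : conj (j (v.1 b)) ≠ 0 := (map_ne_zero _).2 hjvb
  have hcw : conj (j (w.1 b)) ≠ 0 := (map_ne_zero _).2 hjb
  have key : ∀ a, v.1 a * w.1 b = w.1 a * v.1 b := by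
    intro a
    apply hinj
    rw [map_mul, map_mul]
    have h1 := h a b
    have h2 := h b b
    unfold gv at h1 h2
    rw [div_eq_div_iff qv qw] at h1 h2
    -- j va * cvb * qw = j wa * cwb * qv ; j vb * cvb * qw = j wb * cwb * qv
    have e1 : (j (v.1 a) * conj (j (v.1 b)) * (qq w.1 : ℂ)) * (j (w.1 b) * conj (j (w.1 b)) * (qq v.1 : ℂ))
        = (j (w.1 a) * conj (j (w.1 b)) * (qq v.1 : ℂ)) * (j (v.1 b) * conj (j (v.1 b)) * (qq w.1 : ℂ)) := by
      rw [h1, ← h2]
    have e2 : (conj (j (v.1 b)) * (qq w.1 : ℂ) * conj (j (w.1 b)) * (qq v.1 : ℂ)) ≠ 0 := by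
      positivity
    apply mul_right_cancel₀ e2
    linear_combination e1
  rw [pj_eq]
  refine ⟨Units.mk0 (v.1 b / w.1 b) (div_ne_zero hvb hb'), ?_⟩
  funext a
  show (v.1 b / w.1 b) * w.1 a = v.1 a
  rw [div_mul_eq_mul_div, div_eq_iff hb', key a, mul_comm]

/-- the generators are good -/
theorem good_gen (a b : ι) : Good (genF j hj a b) := by
  intro C hC N
  set C1 : ℝ := (Fintype.card ι + 1) * (C * C) with hC1
  have hC1p : 0 < C1 := by positivity
  have hCC : C * C ≤ C1 := by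
    rw [hC1]
    have : (0 : ℝ) ≤ Fintype.card ι := Nat.cast_nonneg _
    nlinarith [mul_pos hC hC]
  set D : ℝ := 4 * (Fintype.card (Fin N × Fin N) * (C1 * C1)) + 1 with hD
  have hDp : 0 < D := by positivity
  refine ⟨1 / D, by positivity, 2 * (Fintype.card (Fin N × Fin N) * (C1 * C1)), ?_⟩
  intro X K κ _ _ _ _ _ _ _ _ φ F hF m hm hm1 ho S c hc hl h hh
  -- extensions of the coordinates
  have e1 : ∀ i : Fin N, ∃ u : C(X, ℂ), ∀ x ∈ F, u x = j (m i x) := fun i => by
    obtain ⟨g, hg⟩ := ContinuousMap.exists_restrict_eq hF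
      (⟨fun x : F => j (m i x.1), (j_continuous j hj).comp
        (continuousOn_iff_continuous_domRestrict.1 (hm i))⟩ : C(F, ℂ))
    exact ⟨g, fun x hx => congrArg (fun u : C(F, ℂ) => u ⟨x, hx⟩) hg⟩
  choose M hM using e1
  have hL : ∀ k, ∀ x ∈ F, ∀ a, j ((∑ i, m i x • c k i) a) = ∑ i, j (c k i a) * M i x := by
    intro k x hx a
    rw [Finset.sum_apply, map_sum]
    refine Finset.sum_congr rfl fun i _ => ?_
    rw [Pi.smul_apply, smul_eq_mul, map_mul, hM i x hx, mul_comm]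
  have hnM : ∀ i, ∀ x ∈ F, ‖M i x‖ ≤ 1 := fun i x hx => by
    rw [hM i x hx, hj]; exact hm1 i x hx
  have hoM : ∀ i, ∀ x ∈ F, ∀ y ∈ F, ‖M i x - M i y‖ ≤ 1 / D := fun i x hx y hy => by
    rw [hM i x hx, hM i y hy, ← map_sub, hj]; exact ho i x hx y hy
  have hck : ∀ k ∈ S, ∀ i a, ‖j (c k i a)‖ ≤ C := fun k hk i a => by
    rw [hj]; exact (norm_le_pi_norm _ a).trans (hc k hk i)
  refine adm_frac φ (N := Fin N × Fin N) (fun p => M p.1 * star (M p.2)) (C := C1)
    (δ := 2 * (1 / D)) hC1p (by positivity) (fun p x hx => ?_) (fun p x hx y hy => ?_) ?_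
    (fun k p => j (c k p.1 a) * conj (j (c k p.2 b)))
    (fun k p => ∑ e, j (c k p.1 e) * conj (j (c k p.2 e))) (fun k hk p => ?_)
    (fun k hk p => ?_) h (fun k hk x hx => ?_) (fun k hk x hx => ?_)
  · show ‖M p.1 x * conj (M p.2 x)‖ ≤ 1
    rw [norm_mul, RCLike.norm_conj]
    exact mul_le_one₀ (hnM _ x hx) (norm_nonneg _) (hnM _ x hx)
  · show ‖M p.1 x * conj (M p.2 x) - M p.1 y * conj (M p.2 y)‖ ≤ _
    have e : M p.1 x * conj (M p.2 x) - M p.1 y * conj (M p.2 y)
        = (M p.1 x - M p.1 y) * conj (M p.2 x) + M p.1 y * conj (M p.2 x - M p.2 y) := by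
      rw [map_sub]; ring
    rw [e]
    refine (norm_add_le _ _).trans ?_
    rw [norm_mul, norm_mul, RCLike.norm_conj, RCLike.norm_conj]
    have a1 := hoM p.1 x hx y hy
    have a2 := hoM p.2 x hx y hy
    have b1 := hnM p.2 x hx
    have b2 := hnM p.1 y hy
    have c1 : ‖M p.1 x - M p.1 y‖ * ‖M p.2 x‖ ≤ 1 / D * 1 :=
      mul_le_mul a1 b1 (norm_nonneg _) (by positivity)
    have c2 : ‖M p.1 y‖ * ‖M p.2 x - M p.2 y‖ ≤ 1 * (1 / D) :=
      mul_le_mul b2 a2 (norm_nonneg _) zero_le_one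
    linarith
  · have : Fintype.card (Fin N × Fin N) * (C1 * C1 * (2 * (1 / D)))
        = (2 * (Fintype.card (Fin N × Fin N) * (C1 * C1))) / D := by ring
    rw [this, ← mul_div_assoc, div_le_one hDp, hD]
    linarith
  · rw [norm_mul, RCLike.norm_conj]
    exact (mul_le_mul (hck k hk _ _) (hck k hk _ _) (norm_nonneg _) hC.le).trans hCC
  · refine (norm_sum_le _ _).trans ?_
    have : ∀ e ∈ (Finset.univ : Finset ι), ‖j (c k p.1 e) * conj (j (c k p.2 e))‖ ≤ C * C :=
      fun e _ => by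
        rw [norm_mul, RCLike.norm_conj]
        exact mul_le_mul (hck k hk _ _) (hck k hk _ _) (norm_nonneg _) hC.le
    refine (Finset.sum_le_card_nsmul _ _ _ this).trans ?_
    rw [nsmul_eq_mul, Finset.card_univ, hC1]
    nlinarith [mul_pos hC hC]
  · have hne := ne_of_low (hl k hk x hx)
    rw [hh k hk x hx hne, genF_mk]
    have hq0 : (qq (∑ i, m i x • c k i) : ℂ) ≠ 0 := by
      rw [Ne, Complex.ofReal_eq_zero]; exact (qq_pos hne).ne'
    have s1 : ∑ p : Fin N × Fin N, (∑ e, j (c k p.1 e) * conj (j (c k p.2 e)))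
        * (M p.1 * star (M p.2)) x = (qq (∑ i, m i x • c k i) : ℂ) := by
      have t1 : ∀ p : Fin N × Fin N, (∑ e, j (c k p.1 e) * conj (j (c k p.2 e)))
          * (M p.1 * star (M p.2)) x
          = ∑ e, (j (c k p.1 e) * M p.1 x) * conj (j (c k p.2 e) * M p.2 x) := fun p => by
        rw [Finset.sum_mul]
        refine Finset.sum_congr rfl fun e _ => ?_
        show j (c k p.1 e) * conj (j (c k p.2 e)) * (M p.1 x * conj (M p.2 x)) = _
        rw [map_mul]; ring
      rw [Finset.sum_congr rfl fun p _ => t1 p, Finset.sum_comm]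
      unfold qq
      rw [Complex.ofReal_sum]
      refine Finset.sum_congr rfl fun e _ => ?_
      rw [← j_conj j hj, hL k x hx e, map_sum, Finset.sum_mul_sum, ← Finset.sum_product']
      rfl
    have s2 : ∑ p : Fin N × Fin N, (j (c k p.1 a) * conj (j (c k p.2 b)))
        * (M p.1 * star (M p.2)) x
        = j ((∑ i, m i x • c k i) a) * conj (j ((∑ i, m i x • c k i) b)) := by
      rw [hL k x hx a, hL k x hx b, map_sum, Finset.sum_mul_sum, ← Finset.sum_product']
      refine Finset.sum_congr rfl fun p _ => ?_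
      show j (c k p.1 a) * conj (j (c k p.2 b)) * (M p.1 x * conj (M p.2 x)) = _
      rw [map_mul]; ring
    rw [s1, s2]
    unfold gv
    rw [div_mul_cancel₀ _ hq0]
  · have hne := ne_of_low (hl k hk x hx)
    have s1 : ∑ p : Fin N × Fin N, (∑ e, j (c k p.1 e) * conj (j (c k p.2 e)))
        * (M p.1 * star (M p.2)) x = (qq (∑ i, m i x • c k i) : ℂ) := by
      have t1 : ∀ p : Fin N × Fin N, (∑ e, j (c k p.1 e) * conj (j (c k p.2 e)))
          * (M p.1 * star (M p.2)) x
          = ∑ e, (j (c k p.1 e) * M p.1 x) * conj (j (c k p.2 e) * M p.2 x) := fun p => by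
        rw [Finset.sum_mul]
        refine Finset.sum_congr rfl fun e _ => ?_
        show j (c k p.1 e) * conj (j (c k p.2 e)) * (M p.1 x * conj (M p.2 x)) = _
        rw [map_mul]; ring
      rw [Finset.sum_congr rfl fun p _ => t1 p, Finset.sum_comm]
      unfold qq
      rw [Complex.ofReal_sum]
      refine Finset.sum_congr rfl fun e _ => ?_
      rw [← j_conj j hj, hL k x hx e, map_sum, Finset.sum_mul_sum, ← Finset.sum_product']
      rfl
    rw [s1, Complex.norm_real, Real.norm_of_nonneg (qq_pos hne).le]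
    have h1 := hl k hk x hx
    have h2 := norm_sq_le_qq (∑ i, m i x • c k i)
    have h3 : 1 ≤ (C * C) * ‖∑ i, m i x • c k i‖ ^ 2 := by nlinarith
    calc (1 : ℝ) ≤ (C * C) * ‖∑ i, m i x • c k i‖ ^ 2 := h3
      _ ≤ C1 * qq (∑ i, m i x • c k i) := mul_le_mul hCC h2 (sq_nonneg _) hC1p.le

include hj in
/-- **Density, `ℝ` and `ℂ`.** -/
theorem good_dense_arch [ProperSpace 𝕜] : Dense {f : C(ℙ 𝕜 (ι → 𝕜), ℂ) | Good f} := by
  refine good_dense_of (Set.range fun p : ι × ι => genF j hj p.1 p.2) ?_ ?_ ?_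
  · rintro _ ⟨p, rfl⟩; exact good_gen j hj p.1 p.2
  · rintro _ ⟨p, rfl⟩; exact ⟨(p.2, p.1), (genF_star j hj p.1 p.2).symm⟩
  · intro x y hxy
    obtain ⟨a, b, h⟩ := genF_sep j hj x y hxy
    exact ⟨_, ⟨(a, b), rfl⟩, h⟩

end gen

section clopen

variable {𝕜 : Type} [NontriviallyNormedField 𝕜] [ProperSpace 𝕜] {ι : Type} [Fintype ι]

/-- a function with finitely separated values (`0`, `1`) is good -/
theorem good_idem (f : C(ℙ 𝕜 (ι → 𝕜), ℂ)) (hf : ∀ x, f x = 0 ∨ f x = 1) : Good f := by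
  intro C hC N
  set B : Set (ι → 𝕜) := {v | 1 ≤ C * ‖v‖} ∩ Metric.closedBall 0 (N * C) with hB
  have hBc : IsCompact B :=
    (isCompact_closedBall _ _).inter_left
      (isClosed_le continuous_const (continuous_const.mul continuous_norm))
  have hB0 : ∀ v ∈ B, v ≠ 0 := fun v hv => ne_of_low hv.1
  have hcont : Continuous fun v : B => f (pj 𝕜 ι ⟨v.1, hB0 v.1 v.2⟩) :=
    f.continuous.comp (pj_continuous.comp (Continuous.subtype_mk continuous_subtype_val _))
  have : CompactSpace B := isCompact_iff_compactSpace.1 hBc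
  have huc := CompactSpace.uniformContinuous_of_continuous hcont
  obtain ⟨δ, hδ, hd⟩ := Metric.uniformContinuous_iff.1 huc 1 one_pos
  refine ⟨δ / (2 * (N * C + 1)), by positivity, 1, ?_⟩
  intro X K κ _ _ _ _ _ _ _ _ φ F hF m hm hm1 ho S c hc hl h hh
  rcases F.eq_empty_or_nonempty with rfl | ⟨x0, hx0⟩
  · refine (Adm.zero.mono zero_le_one).congr fun k _ => ?_
    rw [pv_empty, mul_zero]
  have hmem : ∀ k ∈ S, ∀ x ∈ F, (∑ i, m i x • c k i) ∈ B := fun k hk x hx => by
    refine ⟨hl k hk x hx, ?_⟩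
    rw [mem_closedBall_zero_iff]
    refine (norm_sum_le _ _).trans ?_
    have : ∀ i ∈ (Finset.univ : Finset (Fin N)), ‖m i x • c k i‖ ≤ C := fun i _ => by
      rw [norm_smul]
      calc ‖m i x‖ * ‖c k i‖ ≤ 1 * C := mul_le_mul (hm1 i x hx) (hc k hk i) (norm_nonneg _)
            zero_le_one
        _ = C := one_mul C
    refine (Finset.sum_le_card_nsmul _ _ _ this).trans ?_
    rw [nsmul_eq_mul, Finset.card_univ, Fintype.card_fin]
  have hval : ∀ k ∈ S, ∀ x ∈ F, h k x = h k x0 := by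
    intro k hk x hx
    have n1 := ne_of_low (hl k hk x hx)
    have n2 := ne_of_low (hl k hk x0 hx0)
    have hdist : dist (⟨∑ i, m i x • c k i, hmem k hk x hx⟩ : B)
        ⟨∑ i, m i x0 • c k i, hmem k hk x0 hx0⟩ < δ := by
      show dist (∑ i, m i x • c k i) (∑ i, m i x0 • c k i) < δ
      rw [dist_eq_norm, ← Finset.sum_sub_distrib]
      refine lt_of_le_of_lt (norm_sum_le _ _) ?_
      have : ∀ i ∈ (Finset.univ : Finset (Fin N)), ‖m i x • c k i - m i x0 • c k i‖
          ≤ δ / (2 * (N * C + 1)) * C := fun i _ => by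
        rw [← sub_smul, norm_smul]
        exact mul_le_mul (ho i x hx x0 hx0) (hc k hk i) (norm_nonneg _) (by positivity)
      refine lt_of_le_of_lt (Finset.sum_le_card_nsmul _ _ _ this) ?_
      rw [nsmul_eq_mul, Finset.card_univ, Fintype.card_fin]
      have e : (N : ℝ) * (δ / (2 * (N * C + 1)) * C) = δ * (N * C / (2 * (N * C + 1))) := by
        field_simp
      rw [e]
      have h2 : (N : ℝ) * C / (2 * (N * C + 1)) < 1 := by
        rw [div_lt_one (by positivity)]
        have : (0 : ℝ) ≤ N * C := by positivity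
        linarith
      calc δ * (N * C / (2 * (N * C + 1))) < δ * 1 := mul_lt_mul_of_pos_left h2 hδ
        _ = δ := mul_one δ
    have h3 := hd hdist
    rw [hh k hk x hx n1, hh k hk x0 hx0 n2]
    have h4 : dist (f (Projectivization.mk 𝕜 (∑ i, m i x • c k i) n1))
        (f (Projectivization.mk 𝕜 (∑ i, m i x0 • c k i) n2)) < 1 := h3
    rcases hf (Projectivization.mk 𝕜 (∑ i, m i x • c k i) n1) with e1 | e1 <;>
    rcases hf (Projectivization.mk 𝕜 (∑ i, m i x0 • c k i) n2) with e2 | e2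
    · rw [e1, e2]
    · rw [e1, e2] at h4; simp at h4
    · rw [e1, e2] at h4; simp at h4
    · rw [e1, e2]
  have hle : ∀ k ∈ S, ‖h k x0‖ ≤ 1 := fun k hk => by
    rw [hh k hk x0 hx0 (ne_of_low (hl k hk x0 hx0))]
    rcases hf (Projectivization.mk 𝕜 (∑ i, m i x0 • c k i) (ne_of_low (hl k hk x0 hx0))) with
      e1 | e1 <;> rw [e1] <;> simp
  have key := Adm.smul_const (S := S) (fun k => h k x0) (C := 1) (C' := 1) zero_le_one hle
    (φ 1 * pv φ F) (norm_phi_pv φ zero_le_one fun x _ => by simp)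
  rw [one_mul] at key
  refine key.congr fun k hk => ?_
  rw [← smul_mul_assoc, ← map_smul]
  refine phi_pv_congr φ fun x hx => ?_
  rw [hval k hk x hx]
  simp

/-- **Density, ultrametric fields.** -/
theorem good_dense_ultra [IsUltrametricDist 𝕜] : Dense {f : C(ℙ 𝕜 (ι → 𝕜), ℂ) | Good f} := by
  refine good_dense_of {f | ∀ x, f x = 0 ∨ f x = 1} (fun f hf => good_idem f hf) ?_ ?_
  · intro f hf x
    rcases hf x with h | h
    · left; show star (f x) = 0; rw [h, star_zero]
    · right; show star (f x) = 1; rw [h, star_one]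
  · intro x y hxy
    obtain ⟨U, hU, hx, hy⟩ := exists_isClopen_of_totally_separated hxy
    classical
    refine ⟨⟨fun z => if z ∈ U then 1 else 0, ?_⟩, ?_, ?_⟩
    · have h1 : IsLocallyConstant (fun z : ℙ 𝕜 (ι → 𝕜) => if z ∈ U then (1 : ℂ) else 0) := by
        rw [IsLocallyConstant.iff_exists_open]
        intro z
        by_cases hz : z ∈ U
        · exact ⟨U, hU.isOpen, hz, fun w hw => by simp [hw, hz]⟩
        · exact ⟨Uᶜ, hU.compl.isOpen, hz, fun w hw => by
            have : w ∉ U := hw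
            simp [this, hz]⟩
      exact h1.continuous
    · intro z
      by_cases hz : z ∈ U
      · right; show (if z ∈ U then (1 : ℂ) else 0) = 1; rw [if_pos hz]
      · left; show (if z ∈ U then (1 : ℂ) else 0) = 0; rw [if_neg hz]
    · show (if x ∈ U then (1 : ℂ) else 0) ≠ if y ∈ U then (1 : ℂ) else 0
      rw [if_pos hx, if_neg hy]
      exact one_ne_zero

end clopen

end Vale.Agent.P092.H414
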