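import Vale.Agent.P092.H464.Pv
import Vale.Agent.P092.H175.KbA

/-!
P092, D-C (SL₃ over the complex field), helper414: chaining on one box for functions of class
`C^{1,1}` in at most four real variables. Abstract part: only finite sums.
-/

namespace Vale.Agent.P092.H414.Cx

open Finset

/-! ### The chain lemma -/

section chain

variable {K : Type*} [NormedAddCommGroup K] [InnerProductSpace ℂ K]

/-- **Chain lemma.** `Op h = ∑ i ∈ I, h i • p i`; the functions `e n α` do not depend on `k`. -/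
theorem chain {ι κ A : Type*} (I : Finset ι) (p : ι → K →L[ℂ] K) (ζ : K)
    (hp : ∀ h : ι → ℂ, ‖∑ i ∈ I, h i • p i ζ‖ ^ 2 = ∑ i ∈ I, ‖h i‖ ^ 2 * ‖p i ζ‖ ^ 2)
    (S : Finset κ) (E : κ → K →L[ℂ] K) {B : ℝ} (hB0 : 0 ≤ B)
    (hB : ∀ ζ, ∑ k ∈ S, ‖E k ζ‖ ^ 2 ≤ B * ‖ζ‖ ^ 2)
    (N : ℕ) (T : ℕ → Finset A) (e : ℕ → A → ι → ℂ) (c : κ → ℕ → A → ℂ) {m M : ℝ} (hM0 : 0 ≤ M)
    (he : ∀ n ∈ range (N + 1), ∀ i ∈ I, ∑ α ∈ T n, ‖e n α i‖ ^ 2 ≤ m)
    (hc : ∀ k ∈ S, ∀ n ∈ range (N + 1), ∑ α ∈ T n, ‖c k n α‖ ^ 2 ≤ M) :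
    ∑ k ∈ S, ‖E k (∑ i ∈ I, (∑ n ∈ range (N + 1), ∑ α ∈ T n, c k n α * e n α i) • p i ζ)‖ ^ 2 ≤
      ((N : ℝ) + 1) ^ 2 * (M * (B * m)) * ∑ i ∈ I, ‖p i ζ‖ ^ 2 := by
  set Z : ℕ → A → K := fun n α => ∑ i ∈ I, e n α i • p i ζ with hZ
  have e1 : ∀ k, ∑ i ∈ I, (∑ n ∈ range (N + 1), ∑ α ∈ T n, c k n α * e n α i) • p i ζ =
      ∑ n ∈ range (N + 1), ∑ α ∈ T n, c k n α • Z n α := by
    intro k
    simp_rw [hZ, Finset.sum_smul, Finset.smul_sum, smul_smul]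
    rw [Finset.sum_comm]
    refine Finset.sum_congr rfl fun n _ => ?_
    rw [Finset.sum_comm]
  -- one level
  have e2 : ∀ k ∈ S, ∀ n ∈ range (N + 1), ‖E k (∑ α ∈ T n, c k n α • Z n α)‖ ^ 2 ≤
      M * ∑ α ∈ T n, ‖E k (Z n α)‖ ^ 2 := by
    intro k hk n hn
    rw [map_sum]
    simp_rw [map_smul]
    have h1 : ‖∑ α ∈ T n, c k n α • E k (Z n α)‖ ≤ ∑ α ∈ T n, ‖c k n α‖ * ‖E k (Z n α)‖ := by
      refine (norm_sum_le _ _).trans (le_of_eq ?_)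
      exact Finset.sum_congr rfl fun α _ => norm_smul _ _
    have h2 : (∑ α ∈ T n, ‖c k n α‖ * ‖E k (Z n α)‖) ^ 2 ≤
        (∑ α ∈ T n, ‖c k n α‖ ^ 2) * ∑ α ∈ T n, ‖E k (Z n α)‖ ^ 2 :=
      Finset.sum_mul_sq_le_sq_mul_sq _ _ _
    calc _ ≤ (∑ α ∈ T n, ‖c k n α‖ * ‖E k (Z n α)‖) ^ 2 := by
          exact pow_le_pow_left₀ (norm_nonneg _) h1 2
      _ ≤ _ := h2
      _ ≤ M * ∑ α ∈ T n, ‖E k (Z n α)‖ ^ 2 :=
          mul_le_mul_of_nonneg_right (hc k hk n hn) (Finset.sum_nonneg fun _ _ => sq_nonneg _)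
  have e3 : ∀ n ∈ range (N + 1), ∑ α ∈ T n, ‖Z n α‖ ^ 2 ≤ m * ∑ i ∈ I, ‖p i ζ‖ ^ 2 := by
    intro n hn
    calc ∑ α ∈ T n, ‖Z n α‖ ^ 2 = ∑ α ∈ T n, ∑ i ∈ I, ‖e n α i‖ ^ 2 * ‖p i ζ‖ ^ 2 :=
          Finset.sum_congr rfl fun α _ => hp _
      _ = ∑ i ∈ I, (∑ α ∈ T n, ‖e n α i‖ ^ 2) * ‖p i ζ‖ ^ 2 := by
          rw [Finset.sum_comm]
          exact Finset.sum_congr rfl fun i _ => by rw [Finset.sum_mul]
      _ ≤ ∑ i ∈ I, m * ‖p i ζ‖ ^ 2 :=
          Finset.sum_le_sum fun i hi => mul_le_mul_of_nonneg_right (he n hn i hi) (sq_nonneg _)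
      _ = m * ∑ i ∈ I, ‖p i ζ‖ ^ 2 := by rw [Finset.mul_sum]
  have e4 : ∀ n ∈ range (N + 1), ∑ k ∈ S, ‖E k (∑ α ∈ T n, c k n α • Z n α)‖ ^ 2 ≤
      M * (B * m) * ∑ i ∈ I, ‖p i ζ‖ ^ 2 := by
    intro n hn
    calc ∑ k ∈ S, ‖E k (∑ α ∈ T n, c k n α • Z n α)‖ ^ 2
        ≤ ∑ k ∈ S, M * ∑ α ∈ T n, ‖E k (Z n α)‖ ^ 2 :=
          Finset.sum_le_sum fun k hk => e2 k hk n hn
      _ = M * ∑ α ∈ T n, ∑ k ∈ S, ‖E k (Z n α)‖ ^ 2 := by
          rw [← Finset.mul_sum, Finset.sum_comm]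
      _ ≤ M * ∑ α ∈ T n, B * ‖Z n α‖ ^ 2 := by
          refine mul_le_mul_of_nonneg_left (Finset.sum_le_sum fun α _ => hB _) hM0
      _ = M * (B * ∑ α ∈ T n, ‖Z n α‖ ^ 2) := by rw [← Finset.mul_sum]
      _ ≤ M * (B * (m * ∑ i ∈ I, ‖p i ζ‖ ^ 2)) := by
          refine mul_le_mul_of_nonneg_left (mul_le_mul_of_nonneg_left (e3 n hn) hB0) hM0
      _ = _ := by ring
  calc _ = ∑ k ∈ S, ‖∑ n ∈ range (N + 1), E k (∑ α ∈ T n, c k n α • Z n α)‖ ^ 2 := by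
        refine Finset.sum_congr rfl fun k _ => ?_
        rw [e1, map_sum]
    _ ≤ ∑ k ∈ S, ((#(range (N + 1)) : ℝ) * ∑ n ∈ range (N + 1),
          ‖E k (∑ α ∈ T n, c k n α • Z n α)‖ ^ 2) :=
        Finset.sum_le_sum fun k _ => H175.Kb.norm_sum_sq_le _ _
    _ = ((N : ℝ) + 1) * ∑ n ∈ range (N + 1), ∑ k ∈ S,
          ‖E k (∑ α ∈ T n, c k n α • Z n α)‖ ^ 2 := by
        rw [← Finset.mul_sum, Finset.sum_comm, card_range]; push_cast; rfl
    _ ≤ ((N : ℝ) + 1) * ∑ n ∈ range (N + 1), M * (B * m) * ∑ i ∈ I, ‖p i ζ‖ ^ 2 := by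
        refine mul_le_mul_of_nonneg_left (Finset.sum_le_sum e4) (by positivity)
    _ = _ := by rw [Finset.sum_const, card_range, nsmul_eq_mul]; push_cast; ring

end chain

/-! ### The grid -/

section grid

variable {d : ℕ}

/-- the corner of the cell `c` of level `n` -/
noncomputable def pt (n : ℕ) (c : Fin d → ℕ) : Fin d → ℝ := fun j => (c j : ℝ) / 2 ^ n

/-- the parent cell -/
def hf (c : Fin d → ℕ) : Fin d → ℕ := fun j => c j / 2

/-- the cells of level `n` -/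
def cells (d n : ℕ) : Finset (Fin d → ℕ) := Fintype.piFinset fun _ => range (2 ^ n)

theorem mem_cells {n : ℕ} {c : Fin d → ℕ} : c ∈ cells d n ↔ ∀ j, c j < 2 ^ n := by
  simp [cells, Fintype.mem_piFinset]

theorem card_cells (n : ℕ) : #(cells d n) = 2 ^ (n * d) := by
  rw [cells, Fintype.card_piFinset_const, card_range, ← pow_mul]

/-- the labels of level `n` -/
def TT (d n : ℕ) : Finset ((Fin d → ℕ) × Option (Fin d)) := cells d n ×ˢ univ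

/-- a function of class `C^{1,1}` on the unit cube, with gradient `G` -/
structure C11 (M : ℝ) (F : (Fin d → ℝ) → ℂ) (G : (Fin d → ℝ) → Fin d → ℂ) : Prop where
  val : ∀ x, (∀ j, 0 ≤ x j ∧ x j ≤ 1) → ‖F x‖ ≤ M
  grad : ∀ x, (∀ j, 0 ≤ x j ∧ x j ≤ 1) → ∀ j, ‖G x j‖ ≤ M
  tay : ∀ x y, (∀ j, 0 ≤ x j ∧ x j ≤ 1) → (∀ j, 0 ≤ y j ∧ y j ≤ 1) → ∀ δ : ℝ, 0 ≤ δ →
    (∀ j, |y j - x j| ≤ δ) → ‖F y - F x - ∑ j, G x j * ((y j - x j : ℝ) : ℂ)‖ ≤ M * δ ^ 2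
  lip : ∀ x y, (∀ j, 0 ≤ x j ∧ x j ≤ 1) → (∀ j, 0 ≤ y j ∧ y j ≤ 1) → ∀ δ : ℝ, 0 ≤ δ →
    (∀ j, |y j - x j| ≤ δ) → ∀ j, ‖G y j - G x j‖ ≤ M * δ

/-- the coefficients -/
noncomputable def cf (F : (Fin d → ℝ) → ℂ) (G : (Fin d → ℝ) → Fin d → ℂ) :
    ℕ → (Fin d → ℕ) × Option (Fin d) → ℂ
  | 0, (c, none) => F (pt 0 c)
  | 0, (c, some j) => G (pt 0 c) j
  | n + 1, (c, none) => F (pt (n + 1) c) - F (pt n (hf c))
      - ∑ j, G (pt n (hf c)) j * ((pt (n + 1) c j - pt n (hf c) j : ℝ) : ℂ)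
  | n + 1, (c, some j) => (G (pt (n + 1) c) j - G (pt n (hf c)) j) / 2 ^ (n + 1)

/-- the ancestor of level `n` of a cell of level `N` -/
def anc (N n : ℕ) (i : Fin d → ℕ) : Fin d → ℕ := fun j => i j / 2 ^ (N - n)

/-- the basis functions -/
noncomputable def ee (N : ℕ) (n : ℕ) : (Fin d → ℕ) × Option (Fin d) → (Fin d → ℕ) → ℂ
  | (c, none) => fun i => if anc N n i = c then 1 else 0
  | (c, some j) => fun i => if anc N n i = c then
      ((2 ^ n * (pt N i j - pt n c j) : ℝ) : ℂ) else 0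

theorem anc_mem {N n : ℕ} (hn : n ≤ N) {i : Fin d → ℕ} (hi : i ∈ cells d N) :
    anc N n i ∈ cells d n := by
  rw [mem_cells] at hi ⊢
  intro j
  have h1 : (2 : ℕ) ^ N = 2 ^ n * 2 ^ (N - n) := by rw [← pow_add]; congr 1; omega
  have := hi j
  rw [h1] at this
  exact Nat.div_lt_of_lt_mul (by rwa [mul_comm] at this)

theorem hf_anc {N n : ℕ} (hn : n + 1 ≤ N) (i : Fin d → ℕ) : hf (anc N (n + 1) i) = anc N n i := by
  ext j
  show i j / 2 ^ (N - (n + 1)) / 2 = i j / 2 ^ (N - n)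
  have h1 : N - n = (N - (n + 1)) + 1 := by omega
  rw [h1, pow_succ, Nat.div_div_eq_div_mul]

theorem anc_self {N : ℕ} (i : Fin d → ℕ) : anc N N i = i := by
  ext j; simp [anc]

theorem sum_TT (N n : ℕ) (a : (Fin d → ℕ) × Option (Fin d) → ℂ) {i : Fin d → ℕ}
    (hi : anc N n i ∈ cells d n) :
    ∑ α ∈ TT d n, a α * ee N n α i = a (anc N n i, none) + ∑ j, a (anc N n i, some j) *
      ((2 ^ n * (pt N i j - pt n (anc N n i) j) : ℝ) : ℂ) := by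
  rw [TT, Finset.sum_product, Finset.sum_eq_single (anc N n i)]
  · rw [Fintype.sum_option]
    simp [ee]
  · intro c _ hc
    rw [Fintype.sum_option]
    simp [ee, Ne.symm hc]
  · intro h; exact absurd hi h

/-- the affine approximation of level `n` -/
noncomputable def Av (F : (Fin d → ℝ) → ℂ) (G : (Fin d → ℝ) → Fin d → ℂ) (N n : ℕ)
    (i : Fin d → ℕ) : ℂ :=
  F (pt n (anc N n i)) + ∑ j, G (pt n (anc N n i)) j * ((pt N i j - pt n (anc N n i) j : ℝ) : ℂ)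

theorem telescope (F : (Fin d → ℝ) → ℂ) (G : (Fin d → ℝ) → Fin d → ℂ) {N : ℕ} {i : Fin d → ℕ}
    (hi : i ∈ cells d N) : ∀ m ≤ N,
    ∑ n ∈ range (m + 1), ∑ α ∈ TT d n, cf F G n α * ee N n α i = Av F G N m i := by
  intro m
  induction m with
  | zero =>
    intro _
    rw [Finset.sum_range_one, sum_TT N 0 _ (anc_mem (Nat.zero_le _) hi)]
    simp [cf, Av]
  | succ m ih =>
    intro hm
    rw [Finset.sum_range_succ, ih (by omega), sum_TT N (m + 1) _ (anc_mem hm hi)]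
    simp only [cf, Av, hf_anc hm]
    have h2 : (2 : ℂ) ^ (m + 1) ≠ 0 := pow_ne_zero _ two_ne_zero
    have e1 : ∀ j, (G (pt (m + 1) (anc N (m + 1) i)) j - G (pt m (anc N m i)) j) / 2 ^ (m + 1) *
        ((2 ^ (m + 1) * (pt N i j - pt (m + 1) (anc N (m + 1) i) j) : ℝ) : ℂ) =
        (G (pt (m + 1) (anc N (m + 1) i)) j - G (pt m (anc N m i)) j) *
          ((pt N i j - pt (m + 1) (anc N (m + 1) i) j : ℝ) : ℂ) := by
      intro j
      push_cast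
      field_simp
    simp_rw [e1]
    have e2 : ∀ j, G (pt m (anc N m i)) j * ((pt N i j - pt m (anc N m i) j : ℝ) : ℂ)
        - G (pt m (anc N m i)) j * ((pt (m + 1) (anc N (m + 1) i) j - pt m (anc N m i) j : ℝ) : ℂ)
        + (G (pt (m + 1) (anc N (m + 1) i)) j - G (pt m (anc N m i)) j) *
          ((pt N i j - pt (m + 1) (anc N (m + 1) i) j : ℝ) : ℂ)
        = G (pt (m + 1) (anc N (m + 1) i)) j *
          ((pt N i j - pt (m + 1) (anc N (m + 1) i) j : ℝ) : ℂ) := by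
      intro j
      push_cast
      ring
    have e3 := Finset.sum_congr rfl (fun j (_ : j ∈ (univ : Finset (Fin d))) => e2 j)
    rw [Finset.sum_add_distrib, Finset.sum_sub_distrib] at e3
    linear_combination e3

theorem sum_cf (F : (Fin d → ℝ) → ℂ) (G : (Fin d → ℝ) → Fin d → ℂ) {N : ℕ} {i : Fin d → ℕ}
    (hi : i ∈ cells d N) :
    ∑ n ∈ range (N + 1), ∑ α ∈ TT d n, cf F G n α * ee N n α i = F (pt N i) := by
  rw [telescope F G hi N le_rfl, Av, anc_self]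
  simp

/-! sizes -/

theorem pt_mem {n : ℕ} {c : Fin d → ℕ} (hc : c ∈ cells d n) (j : Fin d) :
    0 ≤ pt n c j ∧ pt n c j ≤ 1 := by
  rw [mem_cells] at hc
  have h := (hc j).le
  have h2 : (0 : ℝ) < 2 ^ n := by positivity
  refine ⟨by unfold pt; positivity, ?_⟩
  unfold pt
  rw [div_le_one h2]
  exact_mod_cast h

theorem pt_anc {N n : ℕ} (hn : n ≤ N) (i : Fin d → ℕ) (j : Fin d) :
    0 ≤ 2 ^ n * (pt N i j - pt n (anc N n i) j) ∧
      2 ^ n * (pt N i j - pt n (anc N n i) j) ≤ 1 := by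
  have h2 : (0 : ℝ) < 2 ^ n := by positivity
  have h3 : (0 : ℝ) < 2 ^ (N - n) := by positivity
  have e : (2 : ℝ) ^ N = 2 ^ n * 2 ^ (N - n) := by rw [← pow_add]; congr 1; omega
  have e1 : 2 ^ n * (pt N i j - pt n (anc N n i) j) =
      (i j : ℝ) / 2 ^ (N - n) - ((i j / 2 ^ (N - n) : ℕ) : ℝ) := by
    unfold pt anc
    rw [e]
    field_simp
  have h4 : ((i j / 2 ^ (N - n) : ℕ) : ℝ) ≤ (i j : ℝ) / 2 ^ (N - n) := by
    have := Nat.cast_div_le (α := ℝ) (m := i j) (n := 2 ^ (N - n))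
    push_cast at this
    exact this
  have h5 : (i j : ℝ) / 2 ^ (N - n) ≤ ((i j / 2 ^ (N - n) : ℕ) : ℝ) + 1 := by
    rw [div_le_iff₀ h3]
    have h6 : i j < (i j / 2 ^ (N - n) + 1) * 2 ^ (N - n) :=
      Nat.lt_mul_of_div_lt (Nat.lt_succ_self _) (by positivity)
    have h7 : (i j : ℝ) < (((i j / 2 ^ (N - n) + 1) * 2 ^ (N - n) : ℕ) : ℝ) := by exact_mod_cast h6
    push_cast at h7
    exact h7.le
  rw [e1]
  constructor <;> linarith

theorem ee_bound {N n : ℕ} (hn : n ≤ N) {i : Fin d → ℕ} (hi : i ∈ cells d N) :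
    ∑ α ∈ TT d n, ‖ee N n α i‖ ^ 2 ≤ (d : ℝ) + 1 := by
  rw [TT, Finset.sum_product, Finset.sum_eq_single (anc N n i)]
  · rw [Fintype.sum_option]
    have h1 : ∀ j ∈ (univ : Finset (Fin d)), ‖ee N n (anc N n i, some j) i‖ ^ 2 ≤ 1 := by
      intro j _
      have h := pt_anc hn i j
      simp only [ee, if_true]
      rw [Complex.norm_real, Real.norm_of_nonneg h.1]
      exact pow_le_one₀ h.1 h.2
    have h2 := Finset.sum_le_sum h1
    simp only [Finset.sum_const, card_univ, Fintype.card_fin, nsmul_eq_mul, mul_one] at h2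
    have h3 : ‖ee N n (anc N n i, none) i‖ ^ 2 = 1 := by simp [ee]
    rw [h3]
    linarith
  · intro c _ hc
    rw [Fintype.sum_option]
    simp [ee, Ne.symm hc]
  · intro h; exact absurd (anc_mem hn hi) h

theorem hf_mem {n : ℕ} {c : Fin d → ℕ} (hc : c ∈ cells d (n + 1)) : hf c ∈ cells d n := by
  rw [mem_cells] at hc ⊢
  intro j
  have := hc j
  rw [pow_succ] at this
  exact Nat.div_lt_of_lt_mul (by rwa [mul_comm] at this)

theorem pt_hf (n : ℕ) (c : Fin d → ℕ) (j : Fin d) :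
    |pt (n + 1) c j - pt n (hf c) j| ≤ 1 / 2 ^ (n + 1) := by
  have h2 : (0 : ℝ) < 2 ^ (n + 1) := by positivity
  have e1 : pt (n + 1) c j - pt n (hf c) j = ((c j : ℝ) - 2 * ((c j / 2 : ℕ) : ℝ)) / 2 ^ (n + 1) := by
    unfold pt hf
    rw [pow_succ]
    field_simp
  rw [e1, abs_div, abs_of_pos h2]
  refine div_le_div_of_nonneg_right ?_ h2.le
  have h3 : c j = 2 * (c j / 2) + c j % 2 := (Nat.div_add_mod _ _).symm
  have h4 : (c j : ℝ) - 2 * ((c j / 2 : ℕ) : ℝ) = ((c j % 2 : ℕ) : ℝ) := by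
    have : (c j : ℝ) = 2 * ((c j / 2 : ℕ) : ℝ) + ((c j % 2 : ℕ) : ℝ) := by exact_mod_cast h3
    linarith
  rw [h4, abs_of_nonneg (by positivity)]
  have : c j % 2 ≤ 1 := by omega
  exact_mod_cast this

theorem cf_bound {M : ℝ} {F : (Fin d → ℝ) → ℂ} {G : (Fin d → ℝ) → Fin d → ℂ}
    (h : C11 M F G) (hd : d ≤ 4) (n : ℕ) :
    ∑ α ∈ TT d n, ‖cf F G n α‖ ^ 2 ≤ ((d : ℝ) + 1) * M ^ 2 := by
  -- each coefficient
  have key : ∀ α ∈ TT d n, ‖cf F G n α‖ ≤ M / 4 ^ n := by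
    rintro ⟨c, o⟩ hα
    rw [TT, Finset.mem_product] at hα
    cases n with
    | zero =>
      have hc := pt_mem hα.1
      rw [pow_zero, div_one]
      cases o with
      | none => exact h.val _ hc
      | some j => exact h.grad _ hc j
    | succ n =>
      have hc := pt_mem hα.1
      have hc' := pt_mem (hf_mem hα.1)
      have hδ : (0 : ℝ) ≤ 1 / 2 ^ (n + 1) := by positivity
      cases o with
      | none =>
        have h1 := h.tay _ _ hc' hc _ hδ (pt_hf n c)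
        refine h1.trans (le_of_eq ?_)
        rw [div_pow, one_pow, ← pow_mul, mul_comm (n + 1) 2, pow_mul]
        norm_num
        rfl
      | some j =>
        have h1 := h.lip _ _ hc' hc _ hδ (pt_hf n c) j
        simp only [cf]
        rw [norm_div, norm_pow, Complex.norm_two, div_le_iff₀ (by positivity)]
        refine h1.trans (le_of_eq ?_)
        have : (4 : ℝ) ^ (n + 1) = 2 ^ (n + 1) * 2 ^ (n + 1) := by rw [← mul_pow]; norm_num
        rw [this]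
        field_simp
  have hcard : (#(TT d n) : ℝ) ≤ ((d : ℝ) + 1) * 16 ^ n := by
    rw [TT, card_product, card_cells, card_univ, Fintype.card_option, Fintype.card_fin]
    push_cast
    have : (2 : ℝ) ^ (n * d) ≤ 16 ^ n := by
      calc (2 : ℝ) ^ (n * d) ≤ 2 ^ (4 * n) := by
            refine pow_le_pow_right₀ (by norm_num) ?_
            nlinarith
        _ = 16 ^ n := by rw [pow_mul]; norm_num
    nlinarith
  calc ∑ α ∈ TT d n, ‖cf F G n α‖ ^ 2 ≤ ∑ _α ∈ TT d n, (M / 4 ^ n) ^ 2 :=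
        Finset.sum_le_sum fun α hα => pow_le_pow_left₀ (norm_nonneg _) (key α hα) 2
    _ = #(TT d n) * (M / 4 ^ n) ^ 2 := by rw [Finset.sum_const, nsmul_eq_mul]
    _ ≤ (((d : ℝ) + 1) * 16 ^ n) * (M / 4 ^ n) ^ 2 := by gcongr
    _ = ((d : ℝ) + 1) * M ^ 2 := by
        have : (16 : ℝ) ^ n = 4 ^ n * 4 ^ n := by rw [← mul_pow]; norm_num
        rw [this]
        field_simp

end grid

end Vale.Agent.P092.H414.Cx
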