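import Vale.Agent.P092.H414.Cx1

/-!
P092, D-C, helper414: chaining on one box, for a finitely additive projection valued measure.
-/

namespace Vale.Agent.P092.H414.Cx

open Finset MeasureTheory
open Vale.Agent.P092.H464 (Pv)

variable {d : ℕ}
variable {K : Type*} [NormedAddCommGroup K] [InnerProductSpace ℂ K] [CompleteSpace K]
variable {X : Type*} [MeasurableSpace X] {P : Set X → (K →L[ℂ] K)}

/-- vectors in the ranges of disjoint projections -/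
theorem norm_sum_sq (hP : Pv P) {ι : Type*} (s : Finset ι) (A : ι → Set X)
    (hA : ∀ i ∈ s, MeasurableSet (A i))
    (hd : ∀ i ∈ s, ∀ j ∈ s, i ≠ j → Disjoint (A i) (A j)) (v : ι → K)
    (hv : ∀ i ∈ s, P (A i) (v i) = v i) : ‖∑ i ∈ s, v i‖ ^ 2 = ∑ i ∈ s, ‖v i‖ ^ 2 := by
  classical
  induction s using Finset.induction_on with
  | empty => simp
  | insert a s ha ih =>
    rw [Finset.sum_insert ha, Finset.sum_insert ha,
      ← ih (fun i hi => hA i (Finset.mem_insert_of_mem hi))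
        (fun i hi j hj => hd i (Finset.mem_insert_of_mem hi) j (Finset.mem_insert_of_mem hj))
        (fun i hi => hv i (Finset.mem_insert_of_mem hi))]
    have h0 : inner ℂ (v a) (∑ i ∈ s, v i) = 0 := by
      rw [inner_sum]
      refine Finset.sum_eq_zero fun i hi => ?_
      have hi' : i ∈ insert a s := Finset.mem_insert_of_mem hi
      have ha' := Finset.mem_insert_self a s
      rw [← hv a ha', ← hv i hi', hP.inner_symm (hA a ha')]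
      have h1 := congrArg (fun T : K →L[ℂ] K => T (v i)) (hP.disj (hA a ha') (hA i hi')
        (hd a ha' i hi' (fun e => ha (e ▸ hi))))
      have h2 : P (A a) (P (A i) (v i)) = 0 := by simpa using h1
      rw [h2, inner_zero_right]
    rw [sq, sq, sq, norm_add_sq_eq_norm_sq_add_norm_sq_of_inner_eq_zero _ _ h0]

/-- the cells of `D` -/
def cl (D : Set X) (u : X → Fin d → ℝ) (N : ℕ) (i : Fin d → ℕ) : Set X :=
  {x | x ∈ D ∧ ∀ j, ⌊(2 : ℝ) ^ N * u x j⌋₊ = i j}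

theorem meas_cl {D : Set X} (hD : MeasurableSet D) {u : X → Fin d → ℝ} (hu : Measurable u)
    (N : ℕ) (i : Fin d → ℕ) : MeasurableSet (cl D u N i) := by
  have h1 : cl D u N i = D ∩ ⋂ j, {x | ⌊(2 : ℝ) ^ N * u x j⌋₊ = i j} := by
    ext x; simp [cl]
  rw [h1]
  refine hD.inter (MeasurableSet.iInter fun j => ?_)
  have h2 : Measurable fun x => ⌊(2 : ℝ) ^ N * u x j⌋₊ :=
    Nat.measurable_floor.comp (((measurable_pi_apply j).comp hu).const_mul _)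
  exact h2 (measurableSet_singleton (i j))

omit [MeasurableSpace X] in
theorem cl_disj (D : Set X) (u : X → Fin d → ℝ) (N : ℕ) {i j : Fin d → ℕ} (h : i ≠ j) :
    Disjoint (cl D u N i) (cl D u N j) := by
  refine Set.disjoint_left.2 fun x hx hy => h ?_
  ext l
  rw [← hx.2 l, hy.2 l]

omit [MeasurableSpace X] in
theorem cl_cover {D : Set X} {u : X → Fin d → ℝ} (hu1 : ∀ x ∈ D, ∀ j, 0 ≤ u x j ∧ u x j < 1)
    (N : ℕ) : (⋃ i ∈ cells d N, cl D u N i) = D := by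
  ext x
  simp only [Set.mem_iUnion, exists_prop]
  constructor
  · rintro ⟨i, _, hx⟩; exact hx.1
  · intro hx
    refine ⟨fun j => ⌊(2 : ℝ) ^ N * u x j⌋₊, ?_, hx, fun _ => rfl⟩
    rw [mem_cells]
    intro j
    have h := hu1 x hx j
    have h2 : (0 : ℝ) < 2 ^ N := by positivity
    rw [Nat.floor_lt (mul_nonneg h2.le h.1)]
    push_cast
    nlinarith

omit [MeasurableSpace X] in
theorem cl_close {D : Set X} {u : X → Fin d → ℝ} (hu1 : ∀ x ∈ D, ∀ j, 0 ≤ u x j ∧ u x j < 1)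
    {N : ℕ} {i : Fin d → ℕ} {x : X} (hx : x ∈ cl D u N i) (j : Fin d) :
    |u x j - pt N i j| ≤ 1 / 2 ^ N := by
  have h := hu1 x hx.1 j
  have h2 : (0 : ℝ) < 2 ^ N := by positivity
  have h3 := Nat.floor_le (mul_nonneg h2.le h.1)
  have h4 := Nat.lt_floor_add_one ((2 : ℝ) ^ N * u x j)
  rw [hx.2 j] at h3 h4
  have e : u x j - pt N i j = (2 ^ N * u x j - i j) / 2 ^ N := by
    unfold pt
    field_simp
  rw [e, abs_div, abs_of_pos h2]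
  refine div_le_div_of_nonneg_right ?_ h2.le
  rw [abs_le]
  constructor <;> linarith

theorem C11.osc {M : ℝ} {F : (Fin d → ℝ) → ℂ} {G : (Fin d → ℝ) → Fin d → ℂ}
    (h : C11 M F G) (hM : 0 ≤ M) {x y : Fin d → ℝ} (hx : ∀ j, 0 ≤ x j ∧ x j ≤ 1)
    (hy : ∀ j, 0 ≤ y j ∧ y j ≤ 1) {δ : ℝ} (hδ : 0 ≤ δ) (hδ1 : δ ≤ 1)
    (hxy : ∀ j, |y j - x j| ≤ δ) : ‖F y - F x‖ ≤ ((d : ℝ) + 1) * M * δ := by
  have h1 := h.tay x y hx hy δ hδ hxy
  have h2 : ‖∑ j, G x j * ((y j - x j : ℝ) : ℂ)‖ ≤ ∑ _j : Fin d, M * δ := by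
    refine (norm_sum_le _ _).trans (Finset.sum_le_sum fun j _ => ?_)
    rw [norm_mul, Complex.norm_real, Real.norm_eq_abs]
    exact mul_le_mul (h.grad x hx j) (hxy j) (abs_nonneg _) hM
  rw [Finset.sum_const, card_univ, Fintype.card_fin, nsmul_eq_mul] at h2
  have h3 : F y - F x = (F y - F x - ∑ j, G x j * ((y j - x j : ℝ) : ℂ))
      + ∑ j, G x j * ((y j - x j : ℝ) : ℂ) := by ring
  have h4 : M * δ ^ 2 ≤ M * δ := by
    refine mul_le_mul_of_nonneg_left ?_ hM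
    nlinarith
  calc ‖F y - F x‖ ≤ ‖F y - F x - ∑ j, G x j * ((y j - x j : ℝ) : ℂ)‖
        + ‖∑ j, G x j * ((y j - x j : ℝ) : ℂ)‖ := by
        conv_lhs => rw [h3]
        exact norm_add_le _ _
    _ ≤ M * δ + d * (M * δ) := add_le_add (h1.trans h4) h2
    _ = _ := by ring

/-- **One box.** -/
theorem box_bound (hP : Pv P) {D : Set X} (hD : MeasurableSet D) {u : X → Fin d → ℝ}
    (hu : Measurable u) (hu1 : ∀ x ∈ D, ∀ j, 0 ≤ u x j ∧ u x j < 1) {κ : Type*} (S : Finset κ)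
    (E W : κ → K →L[ℂ] K) {B : ℝ} (hB0 : 0 ≤ B) (hB : ∀ ζ, ∑ k ∈ S, ‖E k ζ‖ ^ 2 ≤ B * ‖ζ‖ ^ 2)
    (hE : ∀ k ∈ S, ∀ ζ, ‖E k ζ‖ ≤ ‖ζ‖) {M : ℝ} (hM : 0 ≤ M) (F : κ → (Fin d → ℝ) → ℂ)
    (G : κ → (Fin d → ℝ) → Fin d → ℂ) (hF : ∀ k ∈ S, C11 M (F k) (G k)) (hd4 : d ≤ 4)
    (hWc : ∀ k ∈ S, ∀ A, MeasurableSet A → W k * P A = P A * W k)
    (hW : ∀ k ∈ S, ∀ A, MeasurableSet A → A ⊆ D → ∀ (c : ℂ) (e : ℝ), 0 ≤ e →
      (∀ x ∈ A, ‖F k (u x) - c‖ ≤ e) → ∀ ζ, ‖W k (P A ζ) - c • P A ζ‖ ≤ e * ‖P A ζ‖)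
    (N : ℕ) (ζ : K) :
    ∑ k ∈ S, ‖E k (W k (P D ζ))‖ ^ 2 ≤
      2 * (((N : ℝ) + 1) ^ 2 * (((d + 1) * M ^ 2) * (B * (d + 1)))
        + #S * (((d : ℝ) + 1) * M / 2 ^ N) ^ 2) * ‖P D ζ‖ ^ 2 := by
  set I := cells d N with hI
  set p : (Fin d → ℕ) → K →L[ℂ] K := fun i => P (cl D u N i) with hp
  have hm : ∀ i ∈ I, MeasurableSet (cl D u N i) := fun i _ => meas_cl hD hu N i
  have hdis : ∀ i ∈ I, ∀ j ∈ I, i ≠ j → Disjoint (cl D u N i) (cl D u N j) :=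
    fun i _ j _ hij => cl_disj D u N hij
  have hPD : P D = ∑ i ∈ I, p i := by
    rw [← hP.sum I _ hm hdis, cl_cover hu1]
  have hpp : ∀ i ∈ I, ∀ ξ, P (cl D u N i) (p i ξ) = p i ξ := by
    intro i hi ξ
    have := congrArg (fun T : K →L[ℂ] K => T ξ) (hP.idem (hm i hi))
    simpa using this
  have horth : ∀ h : (Fin d → ℕ) → ℂ, ‖∑ i ∈ I, h i • p i ζ‖ ^ 2 =
      ∑ i ∈ I, ‖h i‖ ^ 2 * ‖p i ζ‖ ^ 2 := by
    intro h
    rw [norm_sum_sq hP I _ hm hdis (fun i => h i • p i ζ) (fun i hi => by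
      rw [map_smul, hpp i hi])]
    exact Finset.sum_congr rfl fun i _ => by rw [norm_smul, mul_pow]
  have hn : ‖P D ζ‖ ^ 2 = ∑ i ∈ I, ‖p i ζ‖ ^ 2 := by
    have h1 := horth (fun _ => 1)
    simp only [one_smul, norm_one, one_pow, one_mul] at h1
    rw [← h1, hPD, _root_.sum_apply]
  -- main part
  have hmain := chain I p ζ horth S E hB0 hB N (TT d) (ee N) (fun k => cf (F k) (G k))
    (m := (d : ℝ) + 1) (M := ((d : ℝ) + 1) * M ^ 2) (by positivity)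
    (fun n hn i hi => ee_bound (Nat.lt_succ_iff.1 (Finset.mem_range.1 hn)) hi)
    (fun k hk n _ => cf_bound (hF k hk) hd4 n)
  have hsum : ∀ k, ∑ i ∈ I, (∑ n ∈ range (N + 1), ∑ α ∈ TT d n, cf (F k) (G k) n α * ee N n α i) •
      p i ζ = ∑ i ∈ I, F k (pt N i) • p i ζ := fun k =>
    Finset.sum_congr rfl fun i hi => by rw [sum_cf _ _ hi]
  simp only [hsum] at hmain
  -- the rest
  have hrest : ∀ k ∈ S, ‖W k (P D ζ) - ∑ i ∈ I, F k (pt N i) • p i ζ‖ ^ 2 ≤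
      (((d : ℝ) + 1) * M / 2 ^ N) ^ 2 * ‖P D ζ‖ ^ 2 := by
    intro k hk
    have h1 : W k (P D ζ) - ∑ i ∈ I, F k (pt N i) • p i ζ =
        ∑ i ∈ I, (W k (p i ζ) - F k (pt N i) • p i ζ) := by
      rw [hPD, _root_.sum_apply, map_sum, Finset.sum_sub_distrib]
    have h2 : ∀ i ∈ I, P (cl D u N i) (W k (p i ζ) - F k (pt N i) • p i ζ) =
        W k (p i ζ) - F k (pt N i) • p i ζ := by
      intro i hi
      rw [map_sub, map_smul, hpp i hi]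
      have h3 := congrArg (fun T : K →L[ℂ] K => T (p i ζ)) (hWc k hk _ (hm i hi))
      have h4 : W k (P (cl D u N i) (p i ζ)) = P (cl D u N i) (W k (p i ζ)) := by simpa using h3
      rw [← h4, hpp i hi]
    rw [h1, norm_sum_sq hP I _ hm hdis _ h2, hn, Finset.mul_sum]
    refine Finset.sum_le_sum fun i hi => ?_
    rw [← mul_pow]
    refine pow_le_pow_left₀ (norm_nonneg _) ?_ 2
    refine hW k hk _ (hm i hi) (fun x hx => hx.1) _ _ (by positivity) ?_ ζ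
    intro x hx
    have h5 : (1 : ℝ) / 2 ^ N ≤ 1 := by
      rw [div_le_one (by positivity)]
      exact one_le_pow₀ (by norm_num)
    have h6 := (hF k hk).osc hM (pt_mem hi) (fun j => ⟨(hu1 x hx.1 j).1, (hu1 x hx.1 j).2.le⟩)
      (by positivity) h5 (fun j => cl_close hu1 hx j)
    refine h6.trans (le_of_eq ?_)
    ring
  have hEk : ∀ k ∈ S, ‖E k (W k (P D ζ))‖ ^ 2 ≤
      2 * ‖E k (∑ i ∈ I, F k (pt N i) • p i ζ)‖ ^ 2
        + 2 * ((((d : ℝ) + 1) * M / 2 ^ N) ^ 2 * ‖P D ζ‖ ^ 2) := by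
    intro k hk
    have h1 : E k (W k (P D ζ)) = E k (∑ i ∈ I, F k (pt N i) • p i ζ)
        + E k (W k (P D ζ) - ∑ i ∈ I, F k (pt N i) • p i ζ) := by
      rw [← map_add]; congr 1; abel
    have h2 := pow_le_pow_left₀ (norm_nonneg _)
      (hE k hk (W k (P D ζ) - ∑ i ∈ I, F k (pt N i) • p i ζ)) 2
    have h3 := hrest k hk
    have h4 : ‖E k (W k (P D ζ))‖ ≤ ‖E k (∑ i ∈ I, F k (pt N i) • p i ζ)‖
        + ‖E k (W k (P D ζ) - ∑ i ∈ I, F k (pt N i) • p i ζ)‖ := by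
      rw [h1]; exact norm_add_le _ _
    have h5 := pow_le_pow_left₀ (norm_nonneg _) h4 2
    nlinarith [sq_nonneg (‖E k (∑ i ∈ I, F k (pt N i) • p i ζ)‖
      - ‖E k (W k (P D ζ) - ∑ i ∈ I, F k (pt N i) • p i ζ)‖)]
  calc _ ≤ ∑ k ∈ S, (2 * ‖E k (∑ i ∈ I, F k (pt N i) • p i ζ)‖ ^ 2
        + 2 * ((((d : ℝ) + 1) * M / 2 ^ N) ^ 2 * ‖P D ζ‖ ^ 2)) := Finset.sum_le_sum hEk
    _ = 2 * ∑ k ∈ S, ‖E k (∑ i ∈ I, F k (pt N i) • p i ζ)‖ ^ 2
        + #S * (2 * ((((d : ℝ) + 1) * M / 2 ^ N) ^ 2 * ‖P D ζ‖ ^ 2)) := by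
        rw [Finset.sum_add_distrib, ← Finset.mul_sum, Finset.sum_const, nsmul_eq_mul]
    _ ≤ 2 * (((N : ℝ) + 1) ^ 2 * ((((d : ℝ) + 1) * M ^ 2) * (B * (d + 1))) * ∑ i ∈ I, ‖p i ζ‖ ^ 2)
        + #S * (2 * ((((d : ℝ) + 1) * M / 2 ^ N) ^ 2 * ‖P D ζ‖ ^ 2)) := by
        gcongr
    _ = _ := by rw [← hn]; ring

end Vale.Agent.P092.H414.Cx
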