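import Vale.Agent.P092.H175.KbB
import Vale.Agent.P092.H414.Cx2

/-!
P092, D-C, helper414: the sum over the dyadic scales of the dual plane, `d` real coordinates
(after helper175, H175/KbB).
-/

namespace Vale.Agent.P092.H414.Cx

open Finset MeasureTheory
open Vale.Agent.P092.H464 (Pv)
open Vale.Agent.P092.H175.Kb (floor_half half_bounds near_one ng_close abs_scale card_near_half
  floor_small floor_div_close floor_div_mem scales_abs)

variable {d : ℕ} {Y : Type*}

/-- the dyadic label -/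
noncomputable def lab (j : ℕ) (η : Fin d → ℝ) : Fin d → ℤ := fun i => ⌊2 ^ j * η i⌋

/-- the parent label -/
def par (c : Fin d → ℤ) : Fin d → ℤ := fun i => c i / 2

/-- the neighbourhood of radius `8 / 2 ^ j` of the lattice point `c / 2 ^ j` -/
def near (nz : Set Y) (et : Y → Fin d → ℝ) (j : ℕ) (c : Fin d → ℤ) : Set Y :=
  {ν | ν ∈ nz ∧ ∀ i, |2 ^ j * et ν i - c i| ≤ 8}

/-- the pieces -/
def piece (nz : Set Y) (et : Y → Fin d → ℝ) : ℕ → (Fin d → ℤ) → Set Y
  | 0, c => (near nz et 0 c)ᶜ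
  | j + 1, c => near nz et j (par c) \ near nz et (j + 1) c

variable {nz : Set Y} {et : Y → Fin d → ℝ}

theorem par_lab (j : ℕ) (η : Fin d → ℝ) : par (lab (j + 1) η) = lab j η := by
  ext i
  exact floor_half j (η i)

theorem near_nested (j : ℕ) (c : Fin d → ℤ) : near nz et (j + 1) c ⊆ near nz et j (par c) :=
  fun _ hν => ⟨hν.1, fun i => near_one (hν.2 i)⟩

theorem piece_notMem_near {j : ℕ} {c : Fin d → ℤ} {ν : Y} (h : ν ∈ piece nz et j c) :
    ν ∉ near nz et j c := by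
  cases j with
  | zero => exact h
  | succ j => exact h.2

/-- the lines of `near` are close to the points with the label -/
theorem near_le {j : ℕ} {η : Fin d → ℝ} {ν : Y} (h : ν ∈ near nz et j (lab j η)) (i : Fin d) :
    2 ^ j * |et ν i - η i| ≤ 9 := by
  have h1 := h.2 i
  have c1 := ng_close j (η i)
  rw [← abs_scale]
  change |2 ^ j * et ν i - (⌊2 ^ j * η i⌋ : ℝ)| ≤ 8 at h1
  rw [abs_le] at *
  constructor <;> linarith [h1.1, h1.2, c1.1, c1.2]

/-- the lines outside `near` are away from the points with the label -/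
theorem near_ge {j : ℕ} {η : Fin d → ℝ} {ν : Y} (h0 : ν ∈ nz)
    (h : ν ∉ near nz et j (lab j η)) : ∃ i, 7 ≤ 2 ^ j * |et ν i - η i| := by
  by_contra hc
  push Not at hc
  apply h
  refine ⟨h0, fun i => ?_⟩
  have c1 := ng_close j (η i)
  have d1 := hc i
  rw [← abs_scale] at d1
  change |2 ^ j * et ν i - (⌊2 ^ j * η i⌋ : ℝ)| ≤ 8
  rw [abs_le] at *
  rw [abs_lt] at d1
  constructor <;> linarith [d1.1, d1.2, c1.1, c1.2]

section mult

variable {κ : Type*} (η : κ → Fin d → ℝ) (S : Finset κ)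

theorem mult_piece (hη : ∀ k ∈ S, ∀ i, |η k i| ≤ 1) (j : ℕ) (ν : Y) (T : Finset (Fin d → ℤ))
    (hT : ∀ c ∈ T, ∃ k ∈ S, lab j (η k) = c) (h : ∀ c ∈ T, ν ∈ piece nz et j c) :
    T.card ≤ 35 ^ d := by
  classical
  cases j with
  | zero =>
    have h1 : T ⊆ Fintype.piFinset fun _ : Fin d => Finset.Icc (-1 : ℤ) 1 := by
      intro c hc
      obtain ⟨k, hk, rfl⟩ := hT c hc
      rw [Fintype.mem_piFinset]
      exact fun i => floor_small (hη k hk i)
    refine (Finset.card_le_card h1).trans ?_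
    rw [Fintype.card_piFinset_const]
    exact Nat.pow_le_pow_left (by decide) _
  | succ j =>
    have hex := fun i : Fin d => card_near_half j (et ν i)
    choose I hI hm using hex
    have h1 : T ⊆ Fintype.piFinset I := by
      intro c hc
      rw [Fintype.mem_piFinset]
      exact fun i => hm i _ ((h c hc).1.2 i)
    refine (Finset.card_le_card h1).trans ?_
    rw [Fintype.card_piFinset]
    calc ∏ i, #(I i) ≤ ∏ _i : Fin d, 35 := Finset.prod_le_prod' fun i _ => hI i
      _ = 35 ^ d := by simp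

/-- covering a big cube by small ones -/
theorem card_cube {r : ℝ} (hr : 0 < r) {C₀ : ℕ}
    (hcnt : ∀ n : Fin d → ℝ, ∀ T ⊆ S, (∀ k ∈ T, ∀ i, |η k i - n i| ≤ r) → T.card ≤ C₀)
    (m : ℕ) (n : Fin d → ℝ) (T : Finset κ) (hTS : T ⊆ S)
    (hT : ∀ k ∈ T, ∀ i, |η k i - n i| ≤ m * r) : T.card ≤ (2 * m + 1) ^ d * C₀ := by
  classical
  set I : Finset (Fin d → ℤ) := Fintype.piFinset fun _ : Fin d => Finset.Icc (-(m : ℤ)) m with hI
  have hcard : I.card = (2 * m + 1) ^ d := by
    rw [hI, Fintype.card_piFinset_const, Int.card_Icc]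
    have : ((m : ℤ) + 1 - -(m : ℤ)).toNat = 2 * m + 1 := by omega
    rw [this]
  have hsub : T ⊆ I.biUnion fun a => T.filter fun k => ∀ i, |η k i - (n i + a i * r)| ≤ r := by
    intro k hk
    refine Finset.mem_biUnion.2 ⟨fun i => ⌊(η k i - n i) / r⌋, ?_, ?_⟩
    · rw [hI, Fintype.mem_piFinset]
      exact fun i => floor_div_mem hr (hT k hk i)
    · refine Finset.mem_filter.2 ⟨hk, fun i => ?_⟩
      have := floor_div_close (x := η k i - n i) hr
      rwa [← sub_sub]
  calc _ ≤ _ := Finset.card_le_card hsub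
    _ ≤ I.card * C₀ := by
        refine Finset.card_biUnion_le_card_mul _ _ _ fun a _ => ?_
        exact hcnt _ _ ((Finset.filter_subset _ _).trans hTS) fun k hk =>
          (Finset.mem_filter.1 hk).2
    _ = _ := by rw [hcard]

/-- multiplicity of the last pieces -/
theorem mult_last {r : ℝ} (hr : 0 < r) {C₀ : ℕ}
    (hcnt : ∀ n : Fin d → ℝ, ∀ T ⊆ S, (∀ k ∈ T, ∀ i, |η k i - n i| ≤ r) → T.card ≤ C₀)
    (J m : ℕ) (hJ : 9 ≤ m * r * 2 ^ J) (ν : Y) (T : Finset κ) (hT : T ⊆ S)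
    (h : ∀ k ∈ T, ν ∈ near nz et J (lab J (η k))) : T.card ≤ (2 * m + 1) ^ d * C₀ := by
  refine card_cube η S hr hcnt m (et ν) T hT fun k hk i => ?_
  have h1 := near_le (h k hk) i
  have hp : (0 : ℝ) < 2 ^ J := by positivity
  rw [abs_sub_comm]
  have : 2 ^ J * |et ν i - η k i| ≤ 2 ^ J * (m * r) := by linarith
  exact le_of_mul_le_mul_left this hp

end mult

variable [MeasurableSpace Y]

theorem meas_near (hz : MeasurableSet nz) (ht : Measurable et) (j : ℕ) (c : Fin d → ℤ) :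
    MeasurableSet (near nz et j c) := by
  have h1 : near nz et j c = nz ∩ ⋂ i, {ν | |2 ^ j * et ν i - c i| ≤ 8} := by
    ext ν; simp [near]
  rw [h1]
  refine hz.inter (MeasurableSet.iInter fun i => ?_)
  exact measurableSet_le ((((measurable_pi_apply i).comp ht).const_mul _).sub_const _).abs
    measurable_const

theorem meas_piece (hz : MeasurableSet nz) (ht : Measurable et) (j : ℕ) (c : Fin d → ℤ) :
    MeasurableSet (piece nz et j c) := by
  cases j with
  | zero => exact (meas_near hz ht 0 c).compl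
  | succ j => exact (meas_near hz ht j _).diff (meas_near hz ht (j + 1) c)

variable {K : Type*} [NormedAddCommGroup K] [InnerProductSpace ℂ K] [CompleteSpace K]

/-- the telescoping identity -/
theorem tele {L : Set Y → (K →L[ℂ] K)} (hL : Pv L) (hz : MeasurableSet nz) (ht : Measurable et)
    (η : Fin d → ℝ) (J : ℕ) :
    (1 : K →L[ℂ] K) = (∑ j ∈ range (J + 1), L (piece nz et j (lab j η)))
      + L (near nz et J (lab J η)) := by
  induction J with
  | zero =>
    rw [zero_add, sum_range_one]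
    change 1 = L (near nz et 0 (lab 0 η))ᶜ + _
    rw [hL.compl _ (meas_near hz ht _ _)]; abel
  | succ J ih =>
    rw [sum_range_succ]
    change 1 = _ + L (near nz et J (par (lab (J + 1) η)) \ near nz et (J + 1) (lab (J + 1) η)) + _
    rw [hL.diff (meas_near hz ht _ _) (meas_near hz ht _ _)]
    rw [hL.mul_of_subset' (meas_near hz ht _ _) (meas_near hz ht _ _) (near_nested J _)]
    rw [par_lab]
    conv_lhs => rw [ih]
    abel

/-- **(KB)** The sum over the scales, `d` real coordinates. -/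
theorem kb {L : Set Y → (K →L[ℂ] K)} (hL : Pv L) (hz : MeasurableSet nz) (ht : Measurable et)
    {κ : Type*} (η : κ → Fin d → ℝ) (S : Finset κ)
    (hη : ∀ k ∈ S, ∀ i, |η k i| ≤ 1) {r : ℝ} (hr : 0 < r) {C₀ : ℕ}
    (hcnt : ∀ n : Fin d → ℝ, ∀ T ⊆ S, (∀ k ∈ T, ∀ i, |η k i - n i| ≤ r) → T.card ≤ C₀)
    (J m : ℕ) (hJ : 9 ≤ m * r * 2 ^ J) (V : κ → (K →L[ℂ] K)) (hV : ∀ k ∈ S, ‖V k‖ ≤ 1)
    (A : ℝ) (hA : 0 ≤ A)
    (core : ∀ j ≤ J, ∀ c : Fin d → ℤ, ∀ S' ⊆ S, (∀ k ∈ S', lab j (η k) = c) → ∀ ζ,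
      ∑ k ∈ S', ‖V k (L (piece nz et j c) ζ)‖ ^ 2 ≤ A * ‖L (piece nz et j c) ζ‖ ^ 2) (ξ : K) :
    ∑ k ∈ S, ‖V k ξ‖ ^ 2 ≤ ((J : ℝ) + 2) *
      (((J : ℝ) + 1) * (A * 35 ^ d) + ((2 * m + 1) ^ d * C₀ : ℕ)) * ‖ξ‖ ^ 2 := by
  classical
  have h := scales_abs S (J + 1) (fun j k => lab j (η k)) (fun j c => L (piece nz et j c))
    (fun k => L (near nz et J (lab J (η k)))) V A (35 ^ d : ℕ) ((2 * m + 1) ^ d * C₀ : ℕ) hA hV
    (fun k _ ξ => by
      have h1 := congrArg (fun T : K →L[ℂ] K => T ξ) (tele hL hz ht (η k) J)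
      simpa using h1)
    (fun j _ ξ => hL.mult _ _ (fun c _ => meas_piece hz ht j c) _
      (fun ν T hT h => mult_piece η S hη j ν T (fun c hc => by
        obtain ⟨k, hk, e⟩ := Finset.mem_image.1 (hT hc)
        exact ⟨k, hk, e⟩) h) ξ)
    (fun ξ => hL.mult S (fun k => near nz et J (lab J (η k))) (fun k _ => meas_near hz ht _ _) _
      (fun ν T hT h => mult_last η S hr hcnt J m hJ ν T hT h) ξ)
    (fun j hj c _ ξ => core j (Nat.lt_succ_iff.1 hj) c _ (Finset.filter_subset _ _)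
      (fun k hk => (Finset.mem_filter.1 hk).2) ξ) ξ
  refine h.trans (le_of_eq ?_)
  push_cast
  ring

end Vale.Agent.P092.H414.Cx
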