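import Mathlib

/-!
P092, D-C, helper414 (after helper464, H464/Cross): elementary geometry of lines and points in the
chart `(h : 1 : p)`, `h = y₁ + y₂ p`, over a normed field.
-/

namespace Vale.Agent.P092.H414.Cx

variable {k : Type*} [NormedField k]

/-- value of the line `v` against the two chart coefficients of `y` -/
def al (y : k × k) (v : Fin 3 → k) : k := v 0 * y.1 + v 1
def be (y : k × k) (v : Fin 3 → k) : k := v 0 * y.2 + v 2
/-- distance (up to normalisation) of the line `v` and the chart line `y` -/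
noncomputable def DD (y : k × k) (v : Fin 3 → k) : ℝ := max ‖al y v‖ ‖be y v‖

theorem DD_nonneg (y : k × k) (v : Fin 3 → k) : 0 ≤ DD y v :=
  (norm_nonneg _).trans (le_max_left _ _)

theorem DD_pos {y : k × k} {v : Fin 3 → k} {τ : ℝ} (hv : v ≠ 0) (h0 : 7 * ‖v 0‖ ≤ τ * DD y v) :
    0 < DD y v := by
  rcases (DD_nonneg y v).lt_or_eq with h | h
  · exact h
  · exfalso
    apply hv
    rw [← h, mul_zero] at h0
    have hv0 : v 0 = 0 := by
      have : ‖v 0‖ ≤ 0 := by linarith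
      exact norm_eq_zero.1 (le_antisymm this (norm_nonneg _))
    have ha : ‖al y v‖ ≤ 0 := by rw [h]; exact le_max_left _ _
    have hb : ‖be y v‖ ≤ 0 := by rw [h]; exact le_max_right _ _
    have ha' : al y v = 0 := norm_eq_zero.1 (le_antisymm ha (norm_nonneg _))
    have hb' : be y v = 0 := norm_eq_zero.1 (le_antisymm hb (norm_nonneg _))
    rw [al, hv0] at ha'
    rw [be, hv0] at hb'
    ext i
    fin_cases i
    · simpa using hv0
    · simpa using ha'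
    · simpa using hb'

/-- a line far from `y` which passes near the point `(h : 1 : p)` of the strip of `y` meets the
strip of `y` only near that point -/
theorem cross' {y : k × k} {h p : k} {r τ C3 CB q : ℝ} {v z : Fin 3 → k} (hv : v ≠ 0) (hz : z ≠ 0)
    (hr : 0 < r) (hτ : 0 < τ) (hC3 : 0 ≤ C3) (hCB : 0 ≤ CB) (hq : 0 ≤ q)
    (hp : ‖p‖ ≤ 2) (h0 : 7 * ‖v 0‖ ≤ τ * DD y v)
    (hQ : ‖v 0 * h + v 1 + v 2 * p‖ ≤ q * (τ * r) * DD y v)
    (hu : ‖h - y.1 - y.2 * p‖ ≤ C3 * r)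
    (hzm : ‖z 0 - y.1 * z 1 - y.2 * z 2‖ ≤ CB * r * (‖z 1‖ + ‖z 2‖))
    (hvz : v 0 * z 0 + v 1 * z 1 + v 2 * z 2 = 0)
    (hs1 : (q + C3 / 7) * (τ * r) ≤ 1 / 4) (hs2 : CB / 7 * (τ * r) ≤ 1 / 8) :
    z 1 ≠ 0 ∧ ‖z 2 / z 1 - p‖ ≤ 8 * (q + C3 / 7 + 3 * CB / 7) * (τ * r) := by
  set D := DD y v with hDdef
  set σ := τ * r with hσ
  have hσ0 : 0 < σ := mul_pos hτ hr
  have hD : 0 < D := DD_pos hv h0
  set α := al y v with hα
  set β := be y v with hβ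
  have hαD : ‖α‖ ≤ D := le_max_left _ _
  have hβD : ‖β‖ ≤ D := le_max_right _ _
  -- `‖v 0‖ r ≤ σ D / 7`
  have hv0r : ‖v 0‖ * r ≤ σ * D / 7 := by
    have := mul_le_mul_of_nonneg_right h0 hr.le
    have e : τ * D * r = σ * D := by rw [hσ]; ring
    rw [e] at this
    linarith
  -- `e = α + β p`
  set e := α + β * p with he
  have he1 : ‖e‖ ≤ (q + C3 / 7) * σ * D := by
    have e1 : e = (v 0 * h + v 1 + v 2 * p) - v 0 * (h - y.1 - y.2 * p) := by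
      rw [he, hα, hβ, al, be]; ring
    have e2 : ‖v 0 * (h - y.1 - y.2 * p)‖ ≤ C3 * (σ * D / 7) := by
      rw [norm_mul]
      calc ‖v 0‖ * ‖h - y.1 - y.2 * p‖ ≤ ‖v 0‖ * (C3 * r) :=
            mul_le_mul_of_nonneg_left hu (norm_nonneg _)
        _ = C3 * (‖v 0‖ * r) := by ring
        _ ≤ C3 * (σ * D / 7) := mul_le_mul_of_nonneg_left hv0r hC3
    calc ‖e‖ ≤ ‖v 0 * h + v 1 + v 2 * p‖ + ‖v 0 * (h - y.1 - y.2 * p)‖ := by
          rw [e1]; exact norm_sub_le _ _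
      _ ≤ q * σ * D + C3 * (σ * D / 7) := add_le_add hQ e2
      _ = (q + C3 / 7) * σ * D := by ring
  have he2 : ‖e‖ ≤ D / 4 := by
    calc ‖e‖ ≤ (q + C3 / 7) * σ * D := he1
      _ ≤ 1 / 4 * D := mul_le_mul_of_nonneg_right hs1 hD.le
      _ = D / 4 := by ring
  -- `‖β‖ ≥ D / 4`
  have hβ4 : D / 4 ≤ ‖β‖ := by
    by_contra hcon
    push Not at hcon
    have h1 : ‖α‖ < D := by
      have : α = e - β * p := by rw [he]; ring
      calc ‖α‖ = ‖e - β * p‖ := by rw [this]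
        _ ≤ ‖e‖ + ‖β * p‖ := norm_sub_le _ _
        _ = ‖e‖ + ‖β‖ * ‖p‖ := by rw [norm_mul]
        _ ≤ D / 4 + ‖β‖ * 2 := add_le_add he2 (mul_le_mul_of_nonneg_left hp (norm_nonneg _))
        _ < D / 4 + D / 4 * 2 := by linarith
        _ ≤ D := by linarith
    have h2 : ‖β‖ < D := by linarith
    exact absurd (max_lt h1 h2) (lt_irrefl D)
  -- main identity
  have hmain : e * z 1 + β * (z 2 - p * z 1) = - (v 0 * (z 0 - y.1 * z 1 - y.2 * z 2)) := by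
    rw [he, hα, hβ, al, be]; linear_combination hvz
  have hz2 : ‖z 2‖ ≤ ‖z 2 - p * z 1‖ + 2 * ‖z 1‖ := by
    calc ‖z 2‖ = ‖(z 2 - p * z 1) + p * z 1‖ := by ring_nf
      _ ≤ ‖z 2 - p * z 1‖ + ‖p * z 1‖ := norm_add_le _ _
      _ = ‖z 2 - p * z 1‖ + ‖p‖ * ‖z 1‖ := by rw [norm_mul]
      _ ≤ _ := by
        have := mul_le_mul_of_nonneg_right hp (norm_nonneg (z 1))
        linarith
  have hrhs : ‖v 0 * (z 0 - y.1 * z 1 - y.2 * z 2)‖ ≤ CB / 7 * σ * D * (‖z 1‖ + ‖z 2‖) := by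
    rw [norm_mul]
    calc ‖v 0‖ * ‖z 0 - y.1 * z 1 - y.2 * z 2‖ ≤ ‖v 0‖ * (CB * r * (‖z 1‖ + ‖z 2‖)) :=
          mul_le_mul_of_nonneg_left hzm (norm_nonneg _)
      _ = CB * (‖z 1‖ + ‖z 2‖) * (‖v 0‖ * r) := by ring
      _ ≤ CB * (‖z 1‖ + ‖z 2‖) * (σ * D / 7) :=
          mul_le_mul_of_nonneg_left hv0r (mul_nonneg hCB (by positivity))
      _ = _ := by ring
  set Δ := ‖z 2 - p * z 1‖ with hΔ
  have hΔ0 : 0 ≤ Δ := norm_nonneg _
  have hz10 : 0 ≤ ‖z 1‖ := norm_nonneg _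
  have key : D / 4 * Δ ≤ (q + C3 / 7) * σ * D * ‖z 1‖ + CB / 7 * σ * D * (‖z 1‖ + ‖z 2‖) := by
    calc D / 4 * Δ ≤ ‖β‖ * Δ := mul_le_mul_of_nonneg_right hβ4 hΔ0
      _ = ‖β * (z 2 - p * z 1)‖ := by rw [norm_mul]
      _ = ‖-(v 0 * (z 0 - y.1 * z 1 - y.2 * z 2)) - e * z 1‖ := by rw [← hmain]; ring_nf
      _ ≤ ‖-(v 0 * (z 0 - y.1 * z 1 - y.2 * z 2))‖ + ‖e * z 1‖ := norm_sub_le _ _
      _ = ‖v 0 * (z 0 - y.1 * z 1 - y.2 * z 2)‖ + ‖e‖ * ‖z 1‖ := by rw [norm_neg, norm_mul e]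
      _ ≤ CB / 7 * σ * D * (‖z 1‖ + ‖z 2‖) + (q + C3 / 7) * σ * D * ‖z 1‖ :=
          add_le_add hrhs (mul_le_mul_of_nonneg_right he1 hz10)
      _ = _ := by ring
  have key2 : D / 4 * Δ ≤ (q + C3 / 7) * σ * D * ‖z 1‖ + CB / 7 * σ * D * (3 * ‖z 1‖)
      + 1 / 8 * D * Δ := by
    have h1 : CB / 7 * σ * D * (‖z 1‖ + ‖z 2‖) ≤ CB / 7 * σ * D * (3 * ‖z 1‖ + Δ) := by
      apply mul_le_mul_of_nonneg_left (by linarith)
      positivity
    have h2 : CB / 7 * σ * D * Δ ≤ 1 / 8 * D * Δ := by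
      have := mul_le_mul_of_nonneg_right hs2 (mul_nonneg hD.le hΔ0)
      calc CB / 7 * σ * D * Δ = CB / 7 * σ * (D * Δ) := by ring
        _ ≤ 1 / 8 * (D * Δ) := this
        _ = _ := by ring
    calc D / 4 * Δ ≤ _ := key
      _ ≤ (q + C3 / 7) * σ * D * ‖z 1‖ + CB / 7 * σ * D * (3 * ‖z 1‖ + Δ) := by linarith
      _ = (q + C3 / 7) * σ * D * ‖z 1‖ + CB / 7 * σ * D * (3 * ‖z 1‖) + CB / 7 * σ * D * Δ := by
          ring
      _ ≤ _ := by linarith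
  have key3 : Δ ≤ 8 * (q + C3 / 7 + 3 * CB / 7) * σ * ‖z 1‖ := by
    have : D / 8 * Δ ≤ D / 8 * (8 * (q + C3 / 7 + 3 * CB / 7) * σ * ‖z 1‖) := by
      have e1 : D / 8 * (8 * (q + C3 / 7 + 3 * CB / 7) * σ * ‖z 1‖)
          = (q + C3 / 7) * σ * D * ‖z 1‖ + CB / 7 * σ * D * (3 * ‖z 1‖) := by ring
      rw [e1]; linarith
    exact le_of_mul_le_mul_left this (by positivity)
  have hz1 : z 1 ≠ 0 := by
    intro hz1
    apply hz
    rw [hz1, norm_zero, mul_zero] at key3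
    have hΔz : Δ = 0 := le_antisymm key3 hΔ0
    rw [hΔ, hz1, mul_zero, sub_zero, norm_eq_zero] at hΔz
    rw [hz1, hΔz, norm_zero, mul_zero, mul_zero, sub_zero, sub_zero, add_zero, mul_zero] at hzm
    have hz0 : z 0 = 0 := norm_eq_zero.1 (le_antisymm hzm (norm_nonneg _))
    ext i
    fin_cases i
    · simpa using hz0
    · simpa using hz1
    · simpa using hΔz
  refine ⟨hz1, ?_⟩
  have hz1' : 0 < ‖z 1‖ := norm_pos_iff.2 hz1
  have e1 : z 2 / z 1 - p = (z 2 - p * z 1) / z 1 := by field_simp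
  rw [e1, norm_div, div_le_iff₀ hz1']
  exact key3

/-- a line incident to a point of the cell of the corner `(h, p)` passes near the corner -/
theorem near_corner {y η : k × k} {h p h' p' : k} {r τ : ℝ} {v : Fin 3 → k}
    (hr : 0 < r) (hτ : 0 < τ) (h0 : 7 * ‖v 0‖ ≤ τ * DD y v)
    (hy2 : ‖y.2 - η.2‖ ≤ 2 / τ)
    (hI : v 0 * h' + v 1 + v 2 * p' = 0)
    (hh : ‖(h - η.1 - η.2 * p) - (h' - η.1 - η.2 * p')‖ ≤ 2 * r)
    (hpp : ‖p - p'‖ ≤ 2 * (τ * r)) :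
    ‖v 0 * h + v 1 + v 2 * p‖ ≤ 3 * (τ * r) * DD y v := by
  set D := DD y v with hDdef
  have hD0 : 0 ≤ D := DD_nonneg y v
  have e1 : v 0 * h + v 1 + v 2 * p
      = v 0 * ((h - η.1 - η.2 * p) - (h' - η.1 - η.2 * p'))
        + (be y v - v 0 * (y.2 - η.2)) * (p - p') := by
    rw [be]; linear_combination hI
  have hv0 : ‖v 0‖ ≤ τ * D / 7 := by linarith
  have h1 : ‖v 0 * ((h - η.1 - η.2 * p) - (h' - η.1 - η.2 * p'))‖ ≤ (τ * D / 7) * (2 * r) := by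
    rw [norm_mul]; exact mul_le_mul hv0 hh (norm_nonneg _) (by positivity)
  have h2 : ‖be y v - v 0 * (y.2 - η.2)‖ ≤ D + 2 * D / 7 := by
    calc ‖be y v - v 0 * (y.2 - η.2)‖ ≤ ‖be y v‖ + ‖v 0 * (y.2 - η.2)‖ := norm_sub_le _ _
      _ ≤ D + (τ * D / 7) * (2 / τ) := by
        refine add_le_add (le_max_right _ _) ?_
        rw [norm_mul]; exact mul_le_mul hv0 hy2 (norm_nonneg _) (by positivity)
      _ = D + 2 * D / 7 := by field_simp
  have h3 : ‖(be y v - v 0 * (y.2 - η.2)) * (p - p')‖ ≤ (D + 2 * D / 7) * (2 * (τ * r)) := by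
    rw [norm_mul]; exact mul_le_mul h2 hpp (norm_nonneg _) (by positivity)
  calc ‖v 0 * h + v 1 + v 2 * p‖ ≤ (τ * D / 7) * (2 * r) + (D + 2 * D / 7) * (2 * (τ * r)) := by
        rw [e1]; exact (norm_add_le _ _).trans (add_le_add h1 h3)
    _ ≤ 3 * (τ * r) * D := by nlinarith [mul_nonneg (mul_nonneg hτ.le hr.le) hD0]

/-- a point on a line near `y` lies in the strip of `y` -/
theorem in_strip {y m : k × k} {δ : ℝ} {z : Fin 3 → k} (h1 : ‖m.1 - y.1‖ ≤ δ)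
    (h2 : ‖m.2 - y.2‖ ≤ δ) (hz : z 0 = m.1 * z 1 + m.2 * z 2) :
    ‖z 0 - y.1 * z 1 - y.2 * z 2‖ ≤ δ * (‖z 1‖ + ‖z 2‖) := by
  have e : z 0 - y.1 * z 1 - y.2 * z 2 = (m.1 - y.1) * z 1 + (m.2 - y.2) * z 2 := by
    rw [hz]; ring
  rw [e]
  calc ‖(m.1 - y.1) * z 1 + (m.2 - y.2) * z 2‖ ≤ ‖(m.1 - y.1) * z 1‖ + ‖(m.2 - y.2) * z 2‖ :=
        norm_add_le _ _
    _ ≤ δ * ‖z 1‖ + δ * ‖z 2‖ := by
        rw [norm_mul, norm_mul]
        exact add_le_add (mul_le_mul_of_nonneg_right h1 (norm_nonneg _))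
          (mul_le_mul_of_nonneg_right h2 (norm_nonneg _))
    _ = _ := by ring

end Vale.Agent.P092.H414.Cx
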