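import Vale.Agent.P092.H414.Near

/-!
# Near-wall elements of `SL₃(ℝ)`: the count per column, and the splitting into shells
-/

open Matrix

namespace Vale.Agent.P092.H414

/-- COR 2, row of the pivot not fixed, set in `SL₃(ℝ)`. -/
theorem exists_card_le' (Γ : Subgroup SL3) [DiscreteTopology Γ] {C : ℝ} (hC : 0 < C) (D : ℝ) :
    ∃ N : ℕ, ∀ b : ℝ, 0 < b → ∀ (j : Fin 3) (y0 : Fin 3 → ℝ) (T : Finset SL3),
      (∀ g ∈ T, g ∈ Γ ∧ Sh C b g ∧ ∃ i, Piv g i j ∧
        ∀ l, |g.1 i l / g.1 i j - y0 l| * b ^ 3 ≤ D) → T.card ≤ N := by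
  classical
  have hfin := finite_inter (Γ := Γ) (C ^ 2 + 3 * (C ^ 2 * (2 * D)) + 3 * C ^ 3)
  refine ⟨3 * hfin.toFinset.card, fun b hb j y0 T hT => ?_⟩
  let P : Fin 3 → SL3 → Prop := fun i g => Piv g i j ∧
        ∀ l, |g.1 i l / g.1 i j - y0 l| * b ^ 3 ≤ D
  have hcov : T ⊆ Finset.univ.biUnion fun i : Fin 3 => T.filter (P i) := by
    intro g hg
    obtain ⟨-, -, i, hi⟩ := hT g hg
    exact Finset.mem_biUnion.2 ⟨i, Finset.mem_univ _, Finset.mem_filter.2 ⟨hg, hi⟩⟩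
  refine (Finset.card_le_card hcov).trans ?_
  refine Finset.card_biUnion_le.trans ?_
  calc ∑ i : Fin 3, (T.filter (P i)).card ≤ ∑ _i : Fin 3, hfin.toFinset.card := by
        refine Finset.sum_le_sum fun i _ => ?_
        refine card_disc_le hC hb hfin (i := i) (j := j) y0 _ ?_ ?_
        · intro g hg
          obtain ⟨hg1, hg2⟩ := Finset.mem_filter.1 hg
          exact ⟨(hT g hg1).1, (hT g hg1).2.1, hg2.1⟩
        · intro g hg
          exact (Finset.mem_filter.1 hg).2.2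
    _ = 3 * hfin.toFinset.card := by simp

/-- COR 2, row of the pivot not fixed, finite sets of elements of `Γ`. -/
theorem exists_card_le (Γ : Subgroup SL3) [DiscreteTopology Γ] {C : ℝ} (hC : 0 < C) (D : ℝ) :
    ∃ N : ℕ, ∀ b : ℝ, 0 < b → ∀ (j : Fin 3) (y0 : Fin 3 → ℝ) (T : Finset Γ),
      (∀ g ∈ T, Sh C b g.1 ∧ ∃ i, Piv g.1 i j ∧
        ∀ l, |g.1.1 i l / g.1.1 i j - y0 l| * b ^ 3 ≤ D) → T.card ≤ N := by
  classical
  obtain ⟨N, hN⟩ := exists_card_le' Γ hC D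
  refine ⟨N, fun b hb j y0 T hT => ?_⟩
  have h := hN b hb j y0 (T.map ⟨Subtype.val, Subtype.val_injective⟩) ?_
  · rwa [Finset.card_map] at h
  · intro g hg
    obtain ⟨k, hk, rfl⟩ := Finset.mem_map.1 hg
    exact ⟨k.2, hT k hk⟩

/-! ### Shells -/

/-- The largest modulus of an entry. -/
noncomputable def mx (g : Matrix (Fin 3) (Fin 3) ℝ) : ℝ :=
  Finset.univ.sup' Finset.univ_nonempty fun p : Fin 3 × Fin 3 => |g p.1 p.2|

theorem le_mx (g : Matrix (Fin 3) (Fin 3) ℝ) (i j : Fin 3) : |g i j| ≤ mx g :=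
  Finset.le_sup' (fun p : Fin 3 × Fin 3 => |g p.1 p.2|) (Finset.mem_univ (i, j))

theorem exists_mx (g : Matrix (Fin 3) (Fin 3) ℝ) : ∃ i j, mx g = |g i j| := by
  obtain ⟨p, -, hp⟩ := Finset.exists_mem_eq_sup' Finset.univ_nonempty
    (fun p : Fin 3 × Fin 3 => |g p.1 p.2|)
  exact ⟨p.1, p.2, hp⟩

theorem mx_nonneg (g : Matrix (Fin 3) (Fin 3) ℝ) : 0 ≤ mx g := (abs_nonneg _).trans (le_mx g 0 0)

theorem mx_le {g : Matrix (Fin 3) (Fin 3) ℝ} {c : ℝ} (h : Bd c g) : mx g ≤ c := by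
  obtain ⟨i, j, hij⟩ := exists_mx g
  rw [hij]; exact h i j

theorem Piv.mx_eq {g : SL3} {i j : Fin 3} (h : Piv g i j) : mx g.1 = |g.1 i j| :=
  le_antisymm (mx_le fun k l => h k l) (le_mx _ _ _)

/-- An element of `SL₃(ℝ)` has an entry of modulus `≥ 1/2`. -/
theorem half_le_mx (g : SL3) : 1 / 2 ≤ mx g.1 := by
  by_contra hlt
  rw [not_le] at hlt
  have hm := mx_nonneg g.1
  have hb : ∀ i j, |g.1 i j| ≤ 1 / 2 := fun i j => (le_mx g.1 i j).trans hlt.le
  have hprod : ∀ i j k l m n, |g.1 i j * g.1 k l * g.1 m n| ≤ 1 / 8 := by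
    intro i j k l m n
    rw [abs_mul, abs_mul]
    calc |g.1 i j| * |g.1 k l| * |g.1 m n| ≤ (1 / 2) * (1 / 2) * (1 / 2) := by
          gcongr
          · exact hb i j
          · exact hb k l
          · exact hb m n
      _ = 1 / 8 := by norm_num
  have hd : g.1.det = 1 := g.2
  rw [Matrix.det_fin_three] at hd
  have h1 := abs_le.1 (hprod 0 0 1 1 2 2)
  have h2 := abs_le.1 (hprod 0 0 1 2 2 1)
  have h3 := abs_le.1 (hprod 0 1 1 0 2 2)
  have h4 := abs_le.1 (hprod 0 1 1 2 2 0)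
  have h5 := abs_le.1 (hprod 0 2 1 0 2 1)
  have h6 := abs_le.1 (hprod 0 2 1 1 2 0)
  linarith

/-- The number of the shell of `g`. -/
noncomputable def sn (g : SL3) : ℕ := ⌊Real.log (max 1 (mx g.1))⌋₊

theorem exp_sn_le (g : SL3) : Real.exp (sn g) ≤ max 1 (mx g.1) := by
  have h0 : 0 ≤ Real.log (max 1 (mx g.1)) := Real.log_nonneg (le_max_left _ _)
  have h1 : (sn g : ℝ) ≤ Real.log (max 1 (mx g.1)) := Nat.floor_le h0
  calc Real.exp (sn g) ≤ Real.exp (Real.log (max 1 (mx g.1))) := Real.exp_le_exp.2 h1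
    _ = max 1 (mx g.1) := Real.exp_log (lt_of_lt_of_le one_pos (le_max_left _ _))

theorem mx_lt_exp (g : SL3) : max 1 (mx g.1) < Real.exp (sn g + 1) := by
  have h1 : Real.log (max 1 (mx g.1)) < sn g + 1 := Nat.lt_floor_add_one _
  calc max 1 (mx g.1) = Real.exp (Real.log (max 1 (mx g.1))) :=
        (Real.exp_log (lt_of_lt_of_le one_pos (le_max_left _ _))).symm
    _ < Real.exp (sn g + 1) := Real.exp_lt_exp.2 h1

theorem sn_le {g : SL3} {J : ℕ} (h : mx g.1 ≤ Real.exp J) : sn g ≤ J := by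
  have h1 : max 1 (mx g.1) ≤ Real.exp J := max_le (Real.one_le_exp (by positivity)) h
  have h2 := (exp_sn_le g).trans h1
  exact_mod_cast Real.exp_le_exp.1 h2

/-- A near-wall element `‖g⁻¹‖² ≤ R ‖g‖` lies in the shell `b = exp (sn g / 2)`. -/
theorem shell_of {R : ℝ} (hR : 0 ≤ R) {g : SL3} (h : mx (g⁻¹).1 ^ 2 ≤ R * mx g.1) :
    Sh (3 + 3 * R) (Real.exp (sn g / 2)) g := by
  have hb2 : Real.exp (sn g / 2) ^ 2 = Real.exp (sn g) := by
    rw [← Real.exp_nat_mul]; congr 1; push_cast; ring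
  have he : Real.exp 1 ≤ 3 := (Real.exp_one_lt_d9.trans (by norm_num)).le
  have hup : mx g.1 ≤ 3 * Real.exp (sn g) := by
    calc mx g.1 ≤ Real.exp (sn g + 1) := (le_max_right _ _).trans (mx_lt_exp g).le
      _ = Real.exp (sn g) * Real.exp 1 := Real.exp_add _ _
      _ ≤ Real.exp (sn g) * 3 := by gcongr
      _ = 3 * Real.exp (sn g) := by ring
  have hpos : 0 < Real.exp (sn g) := Real.exp_pos _
  refine ⟨fun i j => ?_, fun i j => ?_, ?_⟩
  · rw [hb2]
    calc |g.1 i j| ≤ 3 * Real.exp (sn g) := (le_mx _ _ _).trans hup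
      _ ≤ (3 + 3 * R) * Real.exp (sn g) := by gcongr; linarith
  · refine (le_mx _ _ _).trans ?_
    have h1 : mx (g⁻¹).1 ^ 2 ≤ ((3 + 3 * R) * Real.exp (sn g / 2)) ^ 2 := by
      calc mx (g⁻¹).1 ^ 2 ≤ R * mx g.1 := h
        _ ≤ R * (3 * Real.exp (sn g)) := by gcongr
        _ = (3 * R) * Real.exp (sn g) := by ring
        _ ≤ (3 + 3 * R) ^ 2 * Real.exp (sn g) := by
            gcongr
            nlinarith
        _ = ((3 + 3 * R) * Real.exp (sn g / 2)) ^ 2 := by rw [mul_pow, hb2]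
    exact (sq_le_sq₀ (mx_nonneg _) (by positivity)).1 h1
  · obtain ⟨i, j, hij⟩ := exists_mx g.1
    refine ⟨i, j, ?_⟩
    rw [hb2, ← hij]
    have h2 : max 1 (mx g.1) ≤ 2 * mx g.1 := by
      have := half_le_mx g
      have hm := mx_nonneg g.1
      exact max_le (by linarith) (by linarith)
    calc Real.exp (sn g) ≤ max 1 (mx g.1) := exp_sn_le g
      _ ≤ 2 * mx g.1 := h2
      _ ≤ (3 + 3 * R) * mx g.1 := by
          have := mx_nonneg g.1
          gcongr; linarith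

/-- `1 ≤ exp (s / 2)`. -/
theorem one_le_b (s : ℕ) : 1 ≤ Real.exp ((s : ℝ) / 2) := Real.one_le_exp (by positivity)

end Vale.Agent.P092.H414
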